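import Mathlib

/-!
# P022K, block LO: the ordinary projector, unramified quotients, matrix units
-/

set_option linter.all false

noncomputable section

namespace Vale.Agent.P022K.LO

open Module Matrix

section fit

variable {R N : Type} [CommRing R] [AddCommGroup N] [Module R N]

theorem pow_fix {T : End R N} {v : N} {n : ℕ} (h : (T ^ n) v = v) (k : ℕ) :
    (T ^ (n * k)) v = v := by
  induction k with
  | zero => simp
  | succ k ih => rw [Nat.mul_succ, pow_add, End.mul_apply, h, ih]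

/-- the periodic vectors -/
def Od (T : End R N) : Submodule R N where
  carrier := {v | ∃ n, 0 < n ∧ (T ^ n) v = v}
  add_mem' := by
    rintro a b ⟨m, h0, hm⟩ ⟨n, h1, hn⟩
    refine ⟨m * n, Nat.mul_pos h0 h1, ?_⟩
    rw [map_add, pow_fix hm, mul_comm, pow_fix hn]
  zero_mem' := ⟨1, one_pos, map_zero _⟩
  smul_mem' := by
    rintro c a ⟨m, h0, hm⟩
    exact ⟨m, h0, by rw [map_smul, hm]⟩

theorem mem_Od {T : End R N} {v : N} : v ∈ Od T ↔ ∃ n, 0 < n ∧ (T ^ n) v = v := Iff.rfl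

theorem pow_map {R' N' F : Type} [CommRing R'] [AddCommGroup N'] [Module R' N'] [FunLike F N N']
    {T : End R N} {T' : End R' N'} (φ : F) (S : Set N) (hS : ∀ v ∈ S, T v ∈ S)
    (h : ∀ v ∈ S, φ (T v) = T' (φ v)) (n : ℕ) :
    ∀ v ∈ S, φ ((T ^ n) v) = (T' ^ n) (φ v) := by
  induction n with
  | zero => simp
  | succ n ih =>
    intro v hv
    rw [pow_succ, pow_succ, End.mul_apply, End.mul_apply, ih _ (hS v hv), h v hv]

theorem Od.map {R' N' F : Type} [CommRing R'] [AddCommGroup N'] [Module R' N'] [FunLike F N N']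
    {T : End R N} {T' : End R' N'} (φ : F) (h : ∀ v, φ (T v) = T' (φ v)) {v : N}
    (hv : v ∈ Od T) : φ v ∈ Od T' :=
  hv.imp fun n hn => ⟨hn.1, by
    rw [← pow_map φ Set.univ (fun _ _ => trivial) (fun v _ => h v) n v trivial, hn.2]⟩

/-- the power which is idempotent at `v` -/
def Sb (T : End R N) (v : N) (n : ℕ) : Prop := 0 < n ∧ (T ^ n) ((T ^ n) v) = (T ^ n) v

theorem Sb.pow {T : End R N} {v : N} {n : ℕ} (h : Sb T v n) {k : ℕ} (hk : 0 < k) :
    (T ^ (n * k)) v = (T ^ n) v := by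
  obtain ⟨k, rfl⟩ := Nat.exists_eq_succ_of_ne_zero hk.ne'
  rw [Nat.mul_succ, pow_add, End.mul_apply, pow_fix h.2]

theorem Sb.eq {T : End R N} {v : N} {m n : ℕ} (h : Sb T v n) (h' : Sb T v m) :
    (T ^ n) v = (T ^ m) v := by
  rw [← h.pow h'.1, mul_comm, h'.pow h.1]

theorem Sb.mul {T : End R N} {v : N} {n : ℕ} (h : Sb T v n) {k : ℕ} (hk : 0 < k) :
    Sb T v (n * k) := ⟨Nat.mul_pos h.1 hk, by rw [h.pow hk, pow_fix h.2]⟩

/-- **the ordinary projector** -/
theorem ex_ord (T : End R N) (h : ∀ v, ∃ n, Sb T v n) :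
    ∃ e : End R N, (∀ v, e v ∈ Od T) ∧ (∀ v ∈ Od T, e v = v) ∧
      ∀ φ : N →+ N, (∀ v, φ (T v) = T (φ v)) → ∀ v, φ (e v) = e (φ v) := by
  choose n hn using h
  have key : ∀ v m, Sb T v m → (T ^ n v) v = (T ^ m) v := fun v m hm => (hn v).eq hm
  have pm := fun (φ : N →+ N) (hφ : ∀ v, φ (T v) = T (φ v)) m v =>
    pow_map φ Set.univ (fun _ _ => trivial) (fun v _ => hφ v) m v trivial
  refine ⟨{ toFun := fun v => (T ^ n v) v
            map_add' := fun a b => ?_
            map_smul' := fun c a => ?_ }, fun v => ⟨n v, hn v⟩, ?_, fun φ hφ v => ?_⟩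
  · have h1 := (hn a).mul (hn b).1
    have h2 := (hn b).mul (hn a).1
    rw [mul_comm] at h2
    rw [key _ _ h1, key _ _ h2, key (a + b) (n a * n b)
      ⟨h1.1, by rw [map_add, map_add, h1.2, h2.2]⟩, map_add]
  · rw [key (c • a) (n a) ⟨(hn a).1, by rw [map_smul, map_smul, (hn a).2]⟩, map_smul]
    rfl
  · rintro v ⟨m, h0, hm⟩
    exact (key v m ⟨h0, by rw [hm, hm]⟩).trans hm
  · show φ ((T ^ n v) v) = (T ^ n (φ v)) (φ v)
    rw [key (φ v) (n v) ⟨(hn v).1, by rw [← pm φ hφ, ← pm φ hφ, (hn v).2]⟩, pm φ hφ]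

theorem ex_Sb (T : End R N) (Z : Set N) (hZ : Z.Finite) (h : ∀ v ∈ Z, T v ∈ Z) {v : N}
    (hv : v ∈ Z) : ∃ n, Sb T v n := by
  have hp : ∀ n : ℕ, (T ^ n) v ∈ Z := fun n => by
    induction n with
    | zero => simpa
    | succ n ih => rw [pow_succ', End.mul_apply]; exact h _ ih
  obtain ⟨a, b, hab, e⟩ := Set.Finite.exists_lt_map_eq_of_forall_mem hp hZ
  obtain ⟨c, rfl⟩ := Nat.exists_eq_add_of_lt hab
  have h1 : (T ^ (c + 1)) ((T ^ a) v) = (T ^ a) v := by
    rw [← End.mul_apply, ← pow_add, e]; congr 2; omega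
  refine ⟨(c + 1) * (a + 1), by positivity, ?_⟩
  obtain ⟨u, hu⟩ : ∃ u, (c + 1) * (a + 1) = u + a := ⟨(c + 1) * (a + 1) - a, by
    have : a ≤ (c + 1) * (a + 1) := by nlinarith
    omega⟩
  have h2 := pow_fix h1 (a + 1)
  nth_rw 2 [hu]
  nth_rw 2 [hu]
  rw [pow_add, End.mul_apply, ← End.mul_apply (T ^ _) (T ^ u), (Commute.pow_pow_self T _ u).eq,
    End.mul_apply, h2]

/-- a factor of an operator for which `v` is periodic -/
theorem Od.of_mul {T T' : End R N} (hc : Commute T T') (Z : Set N) (hZ : Z.Finite)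
    (h : ∀ v ∈ Z, T v ∈ Z) {v : N} (hv : v ∈ Z) (ho : v ∈ Od (T * T')) : v ∈ Od T := by
  obtain ⟨n, h0, hn⟩ := ex_Sb T Z hZ h hv
  obtain ⟨m, h1, hm⟩ := ho
  have e := pow_fix hm n
  rw [hc.mul_pow, (hc.pow_pow _ _).eq, End.mul_apply, mul_comm m n, Sb.pow ⟨h0, hn⟩ h1] at e
  refine ⟨n, h0, ?_⟩
  rw [← e, ← End.mul_apply, (hc.pow_pow _ _).eq, End.mul_apply, hn]

/-- eigenvectors with a unit eigenvalue of finite order -/
theorem Od.of_eig {O : Type} [CommRing O] [Module O N] {T : End R N} {v : N} {b : O}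
    (hl : ∀ (o : O) w, T (o • w) = o • T w) (h : T v = b • v) {n : ℕ} (h0 : 0 < n)
    (hn : b ^ n • v = v) : v ∈ Od T := by
  refine ⟨n, h0, ?_⟩
  have : ∀ k : ℕ, (T ^ k) v = b ^ k • v := fun k => by
    induction k with
    | zero => simp
    | succ k ih => rw [pow_succ', End.mul_apply, ih, hl, h, smul_smul, pow_succ]
  rw [this, hn]

theorem unit_ord {O : Type} [CommRing O] [Module O N] {b : O} (hb : IsUnit b) {v : N}
    (hv : (Set.range fun o : O => o • v).Finite) : ∃ n, 0 < n ∧ b ^ n • v = v := by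
  obtain ⟨a, c, hac, e⟩ := Set.Finite.exists_lt_map_eq_of_forall_mem
    (f := fun n : ℕ => b ^ n • v) (fun n => Set.mem_range_self (b ^ n)) hv
  obtain ⟨c, rfl⟩ := Nat.exists_eq_add_of_lt hac
  refine ⟨c + 1, c.succ_pos, ?_⟩
  obtain ⟨u, hu⟩ := (hb.pow a).exists_left_inv
  have := congrArg (u • ·) e
  simp only [smul_smul, hu, one_smul] at this
  rw [add_assoc, pow_add, ← mul_assoc, hu, one_mul] at this
  exact this.symm

end fit

section mat

variable {A : Type} [CommRing A]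

theorem sandwich {N : Matrix (Fin 2) (Fin 2) A} (h : N.det = 0) (Z : Matrix (Fin 2) (Fin 2) A) :
    N * Z * N = (N * Z).trace • N := by
  rw [det_fin_two] at h
  ext i j
  fin_cases i <;> fin_cases j <;>
    simp [Matrix.mul_apply, Fin.sum_univ_two, trace_fin_two]
  · linear_combination (-Z 1 1) * h
  · linear_combination (Z 0 1) * h
  · linear_combination (Z 1 0) * h
  · linear_combination (-Z 0 0) * h

theorem ch2 (X : Matrix (Fin 2) (Fin 2) A) : X * X = X.trace • X - X.det • 1 := by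
  ext i j
  fin_cases i <;> fin_cases j <;>
    simp [Matrix.mul_apply, Fin.sum_univ_two, trace_fin_two, det_fin_two] <;> ring

theorem dom2 [IsDomain A] {w : Fin 2 → A} (hw : w ≠ 0) {z : A} (h0 : w 0 * z = 0)
    (h1 : w 1 * z = 0) : z = 0 := by
  by_contra hz
  refine hw (funext fun i => ?_)
  fin_cases i
  · exact (mul_eq_zero.1 h0).resolve_right hz
  · exact (mul_eq_zero.1 h1).resolve_right hz

/-- a fixed row vector -/
theorem of_row [IsDomain A] {w : Fin 2 → A} (hw : w ≠ 0) {X : Matrix (Fin 2) (Fin 2) A}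
    (h : w ᵥ* X = w) : (X - X.det • 1).trace = 1 - X.det ∧
      ∀ Y : Matrix (Fin 2) (Fin 2) A, w ᵥ* Y = 0 → (X - X.det • 1) * Y = 0 := by
  have a0 := congrFun h 0
  have a1 := congrFun h 1
  simp only [vecMul, dotProduct, Fin.sum_univ_two] at a0 a1
  have hd : X.det - (X 0 0 + X 1 1) + 1 = 0 := by
    rw [det_fin_two]
    refine dom2 hw ?_ ?_
    · linear_combination (X 1 1 - 1) * a0 - X 1 0 * a1
    · linear_combination (X 0 0 - 1) * a1 - X 0 1 * a0
  refine ⟨?_, fun Y hY => ?_⟩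
  · simp [trace_fin_two]
    linear_combination -hd
  · ext i j
    have b := congrFun hY j
    simp only [vecMul, dotProduct, Fin.sum_univ_two, Pi.zero_apply] at b
    fin_cases i
    · simp [Matrix.mul_apply, Fin.sum_univ_two]
      refine dom2 hw ?_ ?_
      · linear_combination (X 0 0 - X.det) * b + Y 1 j * a1 + w 1 * Y 1 j * hd
      · linear_combination X 0 1 * b - Y 0 j * a1 - w 1 * Y 0 j * hd
    · simp [Matrix.mul_apply, Fin.sum_univ_two]
      refine dom2 hw ?_ ?_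
      · linear_combination X 1 0 * 0 * b + X 1 0 * b - Y 1 j * a0 - w 0 * Y 1 j * hd
      · linear_combination (X 1 1 - X.det) * b + Y 0 j * a0 + w 0 * Y 0 j * hd

variable {G : Type} [Group G]

/-- the relations of an unramified quotient -/
theorem ine_of [IsDomain A] {I : Set G} {ρ : G → Matrix (Fin 2) (Fin 2) A} {w : Fin 2 → A}
    {α : A} {φ : G} (hw : w ≠ 0) (h : ∀ i ∈ I, w ᵥ* ρ i = w) (hφ : w ᵥ* ρ φ = α • w) {s : G}
    (hs : s ∈ I) : (∀ s' ∈ I, (ρ s - (ρ s).det • 1) * (ρ s' - 1) = 0) ∧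
      ((ρ s - (ρ s).det • 1) * ρ φ).trace = (1 - (ρ s).det) * α ∧
      ((ρ s - (ρ s).det • 1) * (ρ φ * ρ φ)).trace = (1 - (ρ s).det) * α ^ 2 := by
  obtain ⟨h1, h2⟩ := of_row hw (h s hs)
  have h3 := h2 (ρ φ - α • 1) (by rw [vecMul_sub, hφ, vecMul_smul, vecMul_one, sub_self])
  rw [mul_sub, sub_eq_zero, Matrix.mul_smul, mul_one] at h3
  refine ⟨fun s' hs' => h2 _ (by rw [vecMul_sub, h s' hs', vecMul_one, sub_self]), ?_, ?_⟩
  · rw [h3, trace_smul, h1, smul_eq_mul, mul_comm]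
  · rw [← mul_assoc, h3, Matrix.smul_mul, h3, trace_smul, trace_smul, h1, smul_eq_mul, smul_eq_mul]
    ring

/-- the unramified quotient -/
theorem row_of {Ω : Type} [Field Ω] {I : Set G} {ρ : G →* Matrix (Fin 2) (Fin 2) Ω} {φ s : G}
    (hc : ∀ i ∈ I, φ * i * φ⁻¹ ∈ I) (hs : s ∈ I) (hd : (ρ s).det ≠ 1)
    (h : ∀ s' ∈ I, (ρ s - (ρ s).det • 1) * (ρ s' - 1) = 0) :
    ∃ (w : Fin 2 → Ω) (α : Ω), w ≠ 0 ∧ (∀ i ∈ I, w ᵥ* ρ i = w) ∧ w ᵥ* ρ φ = α • w := by
  set d := (ρ s).det with hdd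
  set N := ρ s - d • 1 with hN
  have h0 : ∀ i ∈ I, N * ρ i = N := fun i hi => by
    have := h i hi
    rwa [mul_sub, mul_one, sub_eq_zero] at this
  have h1 : (ρ s).trace = d + 1 := by
    have e := h0 s hs
    rw [hN, sub_mul, ch2, Matrix.smul_mul, one_mul] at e
    have e1 : ((ρ s).trace - (d + 1)) • ρ s = 0 := by
      rw [sub_smul, add_smul, one_smul]
      linear_combination (norm := abel) e
    have e2 := congrArg (· * ρ s⁻¹) e1
    simp only [Matrix.smul_mul, ← map_mul, mul_inv_cancel, map_one, zero_mul] at e2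
    simpa [sub_eq_zero] using congrFun (congrFun e2 0) 0
  have h2 : N.trace = 1 - d := by
    rw [hN, trace_sub, h1, trace_smul, trace_one]
    simp
    ring
  have h3 : N * N = (1 - d) • N := by
    nth_rw 2 [hN]
    rw [mul_sub, h0 s hs, Matrix.mul_smul, mul_one, sub_smul, one_smul]
  have h4 : N.det = 0 := by
    have e := ch2 N
    rw [h3, h2, eq_comm, sub_eq_self] at e
    simpa using congrFun (congrFun e 0) 0
  have hd' : 1 - d ≠ 0 := sub_ne_zero.2 hd.symm
  have h5 : N * ρ φ * ρ s = N * ρ φ := by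
    rw [mul_assoc, ← map_mul, show φ * s = φ * s * φ⁻¹ * φ by simp, map_mul, ← mul_assoc,
      h0 _ (hc s hs)]
  have h6 : N * ρ φ = ((N * ρ φ).trace / (1 - d)) • N := by
    have e := sandwich h4 (ρ φ)
    nth_rw 2 [hN] at e
    rw [mul_sub, h5, Matrix.mul_smul, mul_one] at e
    rw [div_eq_inv_mul, mul_smul, ← e, eq_inv_smul_iff₀ hd', sub_smul, one_smul]
  obtain ⟨i, hi⟩ : ∃ i, N i ≠ 0 := by
    by_contra hn
    push Not at hn
    rw [show N = 0 from funext hn, trace_zero] at h2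
    exact hd' h2.symm
  have hr : ∀ X : Matrix (Fin 2) (Fin 2) Ω, N i ᵥ* X = (N * X) i := fun X => rfl
  exact ⟨N i, _, hi, fun j hj => by rw [hr, h0 j hj], by rw [hr, h6]; rfl⟩

end mat

section units

variable {O R M : Type} [CommRing O] [CommRing R] [AddCommGroup M] [Module O M] [Module R M]

theorem scal_eq (m : Matrix (Fin 2) (Fin 2) R) (i j : Fin 2) :
    scalar (Fin 2) (m i j) = ∑ k, single k i (1 : R) * m * single j k 1 := by
  ext a b
  fin_cases i <;> fin_cases j <;> fin_cases a <;> fin_cases b <;>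
    simp [Matrix.mul_apply, Fin.sum_univ_two, single_apply]

/-- relations between matrices give relations between entries -/
theorem ent_rel (E : Matrix (Fin 2) (Fin 2) R →+* End O M)
    (sca : ∀ (u : R) v, E (scalar (Fin 2) u) v = u • v) (S : Set M) (hS : ∀ m, ∀ v ∈ S, E m v ∈ S)
    (T : M →+ M) (hT : ∀ m v, E m (T v) = T (E m v)) {m m' : Matrix (Fin 2) (Fin 2) R}
    (h : ∀ v ∈ S, E m v = T (E m' v)) (i j : Fin 2) : ∀ v ∈ S, m i j • v = T (m' i j • v) := by
  intro v hv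
  rw [← sca, ← sca, scal_eq, scal_eq, map_sum, map_sum, LinearMap.sum_apply, LinearMap.sum_apply,
    map_sum]
  refine Finset.sum_congr rfl fun k _ => ?_
  simp only [map_mul, End.mul_apply]
  rw [h _ (hS _ v hv), hT]

theorem ent_zero (E : Matrix (Fin 2) (Fin 2) R →+* End O M)
    (sca : ∀ (u : R) v, E (scalar (Fin 2) u) v = u • v) (S : Set M) (hS : ∀ m, ∀ v ∈ S, E m v ∈ S)
    {m : Matrix (Fin 2) (Fin 2) R} (h : ∀ v ∈ S, E m v = 0) (i j : Fin 2) :
    ∀ v ∈ S, m i j • v = 0 := fun v hv =>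
  ent_rel E sca S hS 0 (fun _ _ => by simp) (m' := 0) (fun v hv => by simpa using h v hv) i j v hv

theorem tr_rel (E : Matrix (Fin 2) (Fin 2) R →+* End O M)
    (sca : ∀ (u : R) v, E (scalar (Fin 2) u) v = u • v) (S : Set M) (hS : ∀ m, ∀ v ∈ S, E m v ∈ S)
    (T : M →+ M) (hT : ∀ m v, E m (T v) = T (E m v)) {m m' : Matrix (Fin 2) (Fin 2) R}
    (h : ∀ v ∈ S, E m v = T (E m' v)) : ∀ v ∈ S, m.trace • v = T (m'.trace • v) := by
  intro v hv
  rw [trace_fin_two, trace_fin_two, add_smul, add_smul, map_add, ent_rel E sca S hS T hT h 0 0 v hv,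
    ent_rel E sca S hS T hT h 1 1 v hv]

end units

end Vale.Agent.P022K.LO
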