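import Vale.Agent.P022K.O2.St

/-!
# P022K, block LO: ordinary lifting in weight two. The local ring at an odd prime.
-/

set_option linter.all false

noncomputable section

namespace Vale.Agent.P022K.LO

open IsLocalRing MvPowerSeries NumberField Matrix
open Vale.Agent.P022
open Vale.Agent.P022D.L2b (M2)
open Vale.Agent.P022D.Core (PS)
open Vale.Agent.P022K.PL (Cf)
open Vale.Agent.P022D.W (dec)
open Vale.Agent.P022E.GW (Ov Fb)
open Vale.Agent.P022K.GW (Id Cy up)
open Vale.Agent.P022K.RT (Uni Par)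
open Vale.Agent.P022K.O2 (Ord AllF)

/-- a parametrised prime of relative dimension at most four which contains the ordinary points -/
def Oq {O τ : Type} [CommRing O] (P : Id) (φ : dec P) (I : Ideal (PS O τ))
    (f : dec P → M2 (PS O τ)) : Prop :=
  ∃ (J : Ideal (PS O τ)) (k : ℕ), k ≤ 4 ∧ Par J k ∧ AllF P φ I J f

/-- **row ORP**: the ordinary points at an odd prime, residually `α ^ 2 ≠ 1` -/
def ORP : Prop := ∀ (p : ℕ) [Fact p.Prime] (F O τ : Type) [Field F] [Finite F] [CharP F p]
  [CommRing O] [IsDomain O] [IsDiscreteValuationRing O] [Cf O] [Algebra O F] [Fintype τ] (P : Id)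
  (φ : dec P) (ω : dec P →* (ZMod p)ˣ) (r : dec P →* M2 F) (s : F → O) (d : dec P → O)
  (g : τ → dec P) (a b : τ → Fin 2) (I : Ideal (PS O τ)) (f : dec P → M2 (PS O τ)),
  p ≠ 2 → Ov p P → Fb p P φ → Cy (dec P).subtype p ω → IsLocallyConstant r →
  (∀ x, (r x).det = (up ω x : Fˣ)) → (∀ x, algebraMap O F (s x) = x) →
  Uni r s d g a b I f → Ord P φ r → Oq P φ I f

/-- ordinary over an extension field -/
def Orx {A : Type} [CommRing A] (P : Id) (φ : dec P) (ρ : dec P → M2 A) : Prop :=
  ∃ (Ω : Type) (_ : Field Ω) (i : A →+* Ω), Function.Injective i ∧ Ord P φ fun y => (ρ y).map i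

end Vale.Agent.P022K.LO
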