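import Vale.Agent.P022K.LO.Orp0
import Vale.Agent.P022K.LO.St
import Vale.Agent.P022K.LO.Alg
import Vale.Agent.P022K.RT.Lp5
import Vale.Agent.P022K.RT.L5Z1p

/-!
# P022K, block LO: row ORP
-/

set_option linter.all false

noncomputable section

namespace Vale.Agent.P022K.LO

open IsLocalRing MvPowerSeries Module Matrix
open Vale.Agent.P022D.L2b (M2 Z1 pd)
open Vale.Agent.P022D.Core (PS)
open Vale.Agent.P022E.G5 (Cj cjr cj_mul cj_cj)
open Vale.Agent.P027M.S (Inert)
open Vale.Agent.P022D.W (dec)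
open Vale.Agent.P022K.GW (up)
open Vale.Agent.P022K.RT Vale.Agent.P022K.RT.Lu Vale.Agent.P022K.RT.L5
open Vale.Agent.P022K.RT.Zl (ZS iD)

namespace Orp

variable {G F : Type} [Group G] [TopologicalSpace G] [Field F] {r : G →* M2 F}

/-- the linearised relation -/
def Rl (S : Subgroup G) (i0 : G) (r : G →* M2 F) (c : G → M2 F) : Prop :=
  ∀ i ∈ S, c i0 * (r i - 1) + (r i0 - (r i0).det • 1) * c i = 0

theorem Rl.cj {S : Subgroup G} {i0 : G} {c : G → M2 F} {P Q : M2 F} {r' : G →* M2 F}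
    (k : Cj P Q r r') (h : Rl S i0 r c) : Rl S i0 r' fun x => Q * c x * P := fun i hi => by
  have e : Q * 1 * P = 1 := by rw [mul_one, k.symm.1]
  have := congrArg (fun X => Q * X * P) (h i hi)
  simp only [mul_add, add_mul, ← cj_mul k.1, mul_zero, zero_mul] at this
  rw [k.det, k.2, k.2, ← this]
  simp only [mul_sub, sub_mul, e, Matrix.mul_smul, Matrix.smul_mul]

theorem cnt {l : ℕ} {S W : Subgroup G} {τ φ i0 : G} (T : Zl.Wd l S W τ φ) [IsTopologicalGroup G]
    (hn : ∀ x, x * i0 * x⁻¹ ∈ S) (ht : ∀ x, r x 1 0 = 0) (hr : IsLocallyConstant r)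
    (h0 : r i0 0 0 ≠ 1) (h1 : ∀ i ∈ S, r i 1 1 = 1)
    (hb : Module.rank F (ZC (th' ht)) ≤ (2 : ℕ)) (Z : Submodule F (G → M2 F))
    (hZ : ∀ c ∈ Z, Z1 r c ∧ Rl S i0 r c) : Module.rank F Z ≤ (4 : ℕ) := by
  have hi : i0 ∈ S := by simpa using hn 1
  let L : (G → M2 F) →ₗ[F] F × F :=
    { toFun := fun c => (c i0 1 0, c φ 0 0)
      map_add' := fun _ _ => rfl
      map_smul' := fun _ _ => rfl }
  have hle : Z ⊓ LinearMap.ker L ≤ Zb r := by
    rintro c ⟨hc, hL⟩
    obtain ⟨z, R⟩ := hZ c hc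
    have a0 : c i0 1 0 = 0 := congrArg Prod.fst hL
    have a1 : c φ 0 0 = 0 := congrArg Prod.snd hL
    have h0' := sub_ne_zero.2 h0.symm
    have b : ∀ i ∈ S, c i 1 0 = 0 ∧ c i 1 1 = 0 := fun i hi' => by
      have e0 := congrFun (congrFun (R i hi') 1) 0
      have e1 := congrFun (congrFun (R i hi') 1) 1
      simp [Matrix.mul_apply, Fin.sum_univ_two, det_fin_two, ht, a0, h1 i hi', h1 i0 hi, h0']
        at e0 e1
      exact ⟨e0, e1⟩
    have b0 : ∀ x, c x 1 0 = 0 := fun x => by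
      have e := (ent ht z (x * i0 * x⁻¹) x).1
      rw [inv_mul_cancel_right, (ent ht z x i0).1, a0, (b _ (hn x)).1, h1 _ (hn x)] at e
      exact (mul_eq_zero.1 (by linear_combination -e : c x 1 0 * (1 - r i0 0 0) = 0)).resolve_right
        h0'
    have hA : c ∈ Za r := ⟨z, funext fun x => by simp [en, b0]⟩
    obtain ⟨k1, k2⟩ := le_a ht hr ⟨c, hA, rfl⟩
    let a : G →* Multiplicative F := MonoidHom.mk' (fun x => .ofAdd (en r 0 0 0 c x)) fun x y => by
      rw [k2]; simp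
    have ha : a = 1 := T.ext (k1.isOpen_fiber 0) (by simp) (by simp [a, en, a1]) fun i hi' => by
      have e := (ent ht z i i).2.2.2
      rw [(b i hi').2, b0, h1 i hi'] at e
      simp at e
      simp [a, en, e]
    exact ⟨hA, funext fun x => DFunLike.congr_fun ha x⟩
  have e : Zb r ⊓ LinearMap.ker (en r 0 1 1) = ⊥ := by
    rw [eq_bot_iff]
    rintro t ⟨⟨⟨h0, h1⟩, h2⟩, h3⟩
    funext x
    have a1 := en0 (n00 ht) h1 x
    have a2 := en0 (n00 ht) h2 x
    have a3 := en0 (n11 ht) h3 x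
    have a4 := (ent ht h0 x x).2.2.2
    rw [a1, a2, mul_zero, mul_zero, add_zero] at a4
    have a5 := (mul_eq_zero.1 a4).resolve_left (n00 ht x)
    ext i j
    fin_cases i <;> fin_cases j <;> assumption
  have e1 : Module.rank F ↥(Z ⊓ LinearMap.ker L) ≤ (2 : ℕ) := (Submodule.rank_mono hle).trans (by
    rw [rk (Zb r) (en r 0 1 1), e, rank_bot, add_zero]
    exact (Submodule.rank_mono (le_b ht hr)).trans hb)
  rw [rk Z L, show ((4 : ℕ) : Cardinal) = (2 : ℕ) + (2 : ℕ) by norm_num]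
  exact add_le_add ((Submodule.rank_le _).trans (by simp; norm_num)) e1

theorem tri {S : Subgroup G} {φ i0 : G} (hn : ∀ x, x * i0 * x⁻¹ ∈ S) (h0 : (r i0).det ≠ 1)
    {w : Fin 2 → F} {α : F} (hw : w ≠ 0) (h : ∀ i ∈ S, w ᵥ* r i = w) (hφ : w ᵥ* r φ = α • w) :
    ∃ (P Q : M2 F) (r' : G →* M2 F), Cj P Q r r' ∧ (∀ x, r' x 1 0 = 0) ∧
      (∀ i ∈ S, r' i 1 1 = 1) ∧ r' φ 1 1 = α := by
  obtain ⟨Q, hQ, e⟩ : ∃ Q : M2 F, Q.det ≠ 0 ∧ Q 1 = w := by
    by_cases k : w 0 = 0
    · refine ⟨!![1, 0; w 0, w 1], fun k' => hw (funext fun i => ?_), funext fun i => ?_⟩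
      · fin_cases i
        · exact k
        · simpa using k'
      · fin_cases i <;> rfl
    · exact ⟨!![0, 1; w 0, w 1], by simpa using k, funext fun i => by fin_cases i <;> rfl⟩
  have hP : Q⁻¹ * Q = 1 := nonsing_inv_mul Q (IsUnit.mk0 _ hQ)
  have hP' : Q * Q⁻¹ = 1 := mul_eq_one_comm.1 hP
  let r' : G →* M2 F :=
    { toFun := fun x => Q * r x * Q⁻¹
      map_one' := by rw [map_one, mul_one, hP']
      map_mul' := fun x y => by rw [map_mul, cj_mul hP] }
  have k : Cj Q⁻¹ Q r r' := ⟨hP, fun _ => rfl⟩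
  have row : ∀ x (c : F), w ᵥ* r x = c • w → r' x 1 = c • (1 : M2 F) 1 := fun x c hx => by
    show (Q 1 ᵥ* r x) ᵥ* Q⁻¹ = _
    rw [e, hx, smul_vecMul, ← e, ← hP']
    rfl
  have a : ∀ i ∈ S, r' i 1 0 = 0 ∧ r' i 1 1 = 1 := fun i hi => by
    have := row i 1 (by rw [h i hi, one_smul])
    exact ⟨by simpa using congrFun this 0, by simpa using congrFun this 1⟩
  have hi : i0 ∈ S := by simpa using hn 1
  refine ⟨_, _, r', k, fun x => ?_, fun i hi => (a i hi).2, by simpa using congrFun (row φ α hφ) 1⟩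
  have e1 := congrFun (congrFun (map_mul r' (x * i0 * x⁻¹) x) 1) 0
  rw [inv_mul_cancel_right, map_mul] at e1
  simp only [Matrix.mul_apply, Fin.sum_univ_two, a _ hi, a _ (hn x)] at e1
  rw [← k.det, det_fin_two, (a _ hi).1, (a _ hi).2] at h0
  refine (mul_eq_zero.1 (by linear_combination e1 : r' x 1 0 * (r' i0 0 0 - 1) = 0)).resolve_right
    (sub_ne_zero.2 (by simpa using h0))

theorem zc_comp {G' : Type} [Group G'] [TopologicalSpace G'] (j : G' →* G) (hc : Continuous j)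
    (hj : Function.Surjective j) (θ : G →* F) :
    Module.rank F (ZC θ) ≤ Module.rank F (ZC (θ.comp j)) :=
  LinearMap.rank_le_of_injective
    ((LinearMap.funLeft F F j).restrict (p := ZC θ) (q := ZC (θ.comp j)) fun c h =>
      ⟨h.1.comp_continuous hc, fun x y => by
        show c (j (x * y)) = _
        rw [map_mul, h.2]; rfl⟩)
    fun a b e => Subtype.ext (funext fun x => by
      obtain ⟨y, rfl⟩ := hj x
      exact congrFun (congrArg Subtype.val e) y)

end Orp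

open Orp in
/-- row ORP -/
theorem orp : ORP := by
  intro p _ F O τ _ _ _ _ _ _ _ _ _ P φ ω r s d g a b I f h2 h hφ hω hr hd hs hU
    ⟨w, α, hw, hα, h3, h4⟩
  have h' := hU.un hs
  obtain ⟨t, T⟩ := Zl.wd h
  replace T := T φ hφ
  obtain ⟨i0, hi, e0⟩ := om_neg (F := F) h hω h2
  have hn : ∀ x : dec P, x * i0 * x⁻¹ ∈ iD P := fun x => P022D.W.conj_inP x.2 hi
  let N : dec P → M2 (PS O τ) := fun i => (f i0 - (C (d i0) : PS O τ) • 1) * (f i - 1)
  have hN : ∀ (B : Type) [CommRing B] [IsDomain B] (x : PS O τ →+* B), (∀ u ∈ I, x u = 0) →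
      ∀ (w : Fin 2 → B) (α : B), w ≠ 0 → (∀ i : dec P, Inert P i → w ᵥ* (f i).map x = w) →
      w ᵥ* (f φ).map x = α • w →
      ∀ u ∈ I ⊔ Ideal.span {u | ∃ i ∈ iD P, ∃ k l, u = N i k l}, x u = 0 := by
    intro B _ _ x hx w α hw h3 h4
    refine (sup_le hx (Ideal.span_le.2 ?_) : _ ≤ RingHom.ker x)
    rintro _ ⟨i, hi', k, l, rfl⟩
    have e := (ine_of (I := iD P) (ρ := fun y => (f y).map x) hw h3 h4 hi).1 i hi'
    rw [show ((f i0).map x).det = x (C (d i0)) from h'.rep_det x hx i0] at e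
    refine Eq.trans ?_ (congrFun (congrFun e k) l)
    simp [N, Matrix.mul_apply, Fin.sum_univ_two, Matrix.one_apply, apply_ite x]
  have hI : ∀ u ∈ I, rs F O τ u = 0 := fun u hu => (rs_max hs u).1 (hU.le hu)
  have hf : ∀ x, (f x).map (rs F O τ) = r x := fun x => Matrix.ext (hU.red x)
  have hrep : h'.rep _ hI = r := MonoidHom.ext hf
  obtain ⟨A, Q, r', k, ht, h5, h6⟩ := tri (r := r) hn (by rw [hd]; exact e0.symm) hw h3 h4
  obtain ⟨j, hc, hj, -, hy⟩ := Tr.exists_j p h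
  have hb : Module.rank F (ZC (th' ht)) ≤ (2 : ℕ) := by
    obtain ⟨y, rfl⟩ := hj φ
    refine (zc_comp j hc hj _).trans ((ct z1p' h2 (ω := ω.comp j) (hy ω hω)
      (ker_om (r := r.comp j) (hr.comp_continuous hc) fun x => hd _) _
      ((th'_lc ht (k.lc hr)).comp_continuous hc)).2 ⟨y, fun e => hα ?_⟩)
    have e1 := (k.det (j y)).trans (hd _)
    have e2 : r' (j y) 0 0 / r' (j y) 1 1 = (up ω (j y) : Fˣ) := e
    rw [← e1, det_fin_two, ht, div_eq_iff (n11 ht _), h6] at e2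
    exact mul_left_cancel₀ (n00 ht (j y)) (by linear_combination -e2)
  obtain ⟨J, n, j1, j2, j3⟩ := cut hs (I := I ⊔ Ideal.span {u | ∃ i ∈ iD P, ∃ k l, u = N i k l})
    (n := 4) (fun u hu => (rs_max hs u).2 (hN F _ hI w α hw (by simpa only [hf] using h3)
      (by rw [hf, h4]) u hu)) (by
    let L : (τ → F) →ₗ[F] dec P → M2 F :=
      { toFun := fun v x => Q * (f x).map (dr (rs F O τ) v) * A
        map_add' := fun v v' => funext fun x => by
          rw [Pi.add_apply, ← add_mul, ← mul_add]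
          congr 2
          ext i j
          simp [dr, add_mul, Finset.sum_add_distrib]
        map_smul' := fun c v => funext fun x => by
          rw [Pi.smul_apply, RingHom.id_apply, ← Matrix.smul_mul, ← Matrix.mul_smul]
          congr 2
          ext i j
          simp [dr, Finset.mul_sum, mul_assoc] }
    have hz := fun v (hv : v ∈ Tg (F := F) (I ⊔ Ideal.span {u | ∃ i ∈ iD P, ∃ k l, u = N i k l})) =>
      h'.zc (n := ⊥) hI (fun u hu => (rs_max hs u).1 hu) fun u hu => hv u (Ideal.mem_sup_left hu)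
    rw [rk _ L, (eq_bot_iff.2 ?_ : _ ⊓ LinearMap.ker L = ⊥), rank_bot, add_zero]
    · refine cnt T hn ht (k.lc hr) (fun e => e0 ?_) h5 hb _ ?_
      · rw [← hd, ← k.det, det_fin_two, ht, e, h5 _ hi]; simp
      rintro _ ⟨v, hv, rfl⟩
      obtain ⟨⟨z1, z2, z3⟩, -⟩ := hz v hv
      rw [hrep] at z2 z3
      refine ⟨k.z1 ⟨IsLocallyConstant.desc _ (fun X : M2 F => X.map _) (z1 1) (Matrix.map_injective
        ((RingHom.injective_iff_ker_eq_bot _).2 (by simp))), z2, z3⟩, Rl.cj k fun i hi' => ?_⟩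
      ext k l
      refine Eq.trans ?_ (hv _ (Ideal.mem_sup_right (Ideal.subset_span ⟨i, hi', k, l, rfl⟩)))
      rw [← hrep, h'.rep_det]
      simp [N, Matrix.mul_apply, Fin.sum_univ_two, Matrix.one_apply, dr_add, dr_mul, dr_sub,
        apply_ite (dr _ _), apply_ite (rs F O τ), dr_C, dr_one, dr_zero, Un.rep_apply]
      ring
    · rintro v ⟨hv, h0⟩
      funext t
      have e : Q * (f (g t)).map (dr (rs F O τ) v) * A = 0 := congrFun h0 (g t)
      rw [← (hz v hv).2 t, ← Matrix.map_apply (f := dr _ _), ← cj_cj k.1 (Matrix.map _ _), e]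
      simp)
  refine ⟨J, n, j1, j2, fun Ω _ _ _ x hx ⟨w, α, hw, _, h3, h4⟩ u hu => ?_⟩
  exact hN Ω x hx.ker w α hw h3 h4 u (j3 hu)

end Vale.Agent.P022K.LO
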