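import Vale.Agent.P022K.LO.Ord
import Vale.Agent.P022K.LO.Orp
import Vale.Agent.P022K.O2.All
import Vale.Agent.P022K.RT.Sys
import Vale.Agent.P022K.RT.Pkg

/-!
# P022K, block LO: ordinary modularity lifting on a site, closed
-/

namespace Vale.Agent.P022K.LO

/-- **row ORD** -/
theorem ord : ORD := ord_of_rows RT.pkg RT.sys orp O2.ord2

end Vale.Agent.P022K.LO
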