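import Vale.Agent.P022K.LO.Lord
import Vale.Agent.P022K.RT.Sys
import Vale.Agent.P022K.RT.Pkg
import Vale.Agent.P022K.RT.QbZ

/-!
# P022K, block LO: ordinary lifts, closed
-/

namespace Vale.Agent.P022K.LO

/-- **row LORD** -/
theorem lordC : LORD := lord RT.sys RT.pkg RT.qb

end Vale.Agent.P022K.LO
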