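import Vale.Agent.P022K.LO.Ort
import Vale.Agent.P022K.LO.St
import Vale.Agent.P022K.RT.Bigp
import Vale.Agent.P022K.RT.Trn
import Vale.Agent.P022K.O2.Asm

/-!
# P022K, block LO: the ordinary component lies in the support of the ordinary part
-/

set_option linter.all false

noncomputable section

namespace Vale.Agent.P022K.LO

open IsLocalRing MvPowerSeries Filter Module Matrix
open Vale.Agent.P022 Vale.Agent.P022.C
open Vale.Agent.P022D.L2b (M2)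
open Vale.Agent.P022D.Core (PS)
open Vale.Agent.P022D.W (dec conj_inP inP_le_dec)
open Vale.Agent.P022E.GW (Ov Fb)
open Vale.Agent.P022.H443 (inP)
open Vale.Agent.P022K.PL (Cf)
open Vale.Agent.P022K.GW (Id)
open Vale.Agent.P022K.Top (Si cy Bad)
open Vale.Agent.P022K.Sh (Fv)
open Vale.Agent.P022K.O2 (AllF)
open Vale.Agent.P022K.RT Vale.Agent.P022K.RT.Pd

/-- the function `4 (α ^ 2 - 1)` on the ordinary locus -/
def dl {G R : Type} [CommRing R] (f : G → M2 R) (s φ : G) : R := ((f s + 1) * f φ).trace ^ 2 - 4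

theorem dl_map {G R A Φ : Type} [CommRing R] [CommRing A] [FunLike Φ R A] [RingHomClass Φ R A]
    (x : Φ) (f : G → M2 R) (s φ : G) : x (dl f s φ) = dl (fun y => (f y).map x) s φ := by
  simp [dl, trace_fin_two, Matrix.mul_apply, Fin.sum_univ_two, map_ofNat]

theorem tr_map {R A Φ : Type} [CommRing R] [CommRing A] [FunLike Φ R A] [RingHomClass Φ R A]
    (x : Φ) (m : M2 R) : x m.trace = (m.map x).trace := by
  simp [trace_fin_two]

variable {p : ℕ} [Fact p.Prime] {O F : Type} [CommRing O] [IsDomain O]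
  [IsDiscreteValuationRing O] [Algebra ℤ_[p] O] [Field F]

theorem ex_s0 {P : Id} (h : Ov p P) : ∃ s : dec P, s.1 ∈ inP P ∧ cy p O s.1 = -1 := by
  obtain ⟨s, h1, h2⟩ := CH.ez_surj h (-1)
  exact ⟨⟨s, inP_le_dec h1⟩, h1, by rw [Top.cy_eq, h2]; simp⟩

section loc

variable [Algebra O F] {P : Id} {τ : Type} {r : dec P →* M2 F} {s : F → O} {g : τ → dec P}
  {a b : τ → Fin 2} {I J : Ideal (PS O τ)} {f : dec P → M2 (PS O τ)}

variable (p) in
/-- the equations of the ordinary locus -/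
def Ie (P : Id) (f : dec P → M2 (PS O τ)) (J : Ideal (PS O τ)) : Prop :=
  ∀ s s' : dec P, s.1 ∈ inP P → s'.1 ∈ inP P → ∀ i j,
    ((f s - (C (cy p O s.1) : PS O τ) • 1) * (f s' - 1)) i j ∈ J

variable (hU : Uni r s (fun x => cy p O x.1) g a b I f)
  {A : Type} [CommRing A] [Algebra O A] (x : PS O τ →ₐ[O] A) (hx : ∀ u ∈ I, x u = 0)

/-- the representation at a point -/
def ptH : dec P →* M2 A where
  toFun y := (f y).map x
  map_one' := (hU.one.map x hx).trans (Matrix.map_one _ (map_zero _) (map_one _))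
  map_mul' y z := ((hU.mul y z).map x hx).trans Matrix.map_mul

theorem ptH_det (y : dec P) : (ptH hU x hx y).det = algebraMap O A (cy p O y.1) := by
  have := hx _ (hU.det y)
  rw [map_sub, sub_eq_zero, AlgHom.map_det] at this
  exact this.trans (x.commutes _)

end loc

section fld

variable [Algebra O F] {P : Id} {τ : Type} {r : dec P →* M2 F} {s : F → O} {g : τ → dec P}
  {a b : τ → Fin 2} {I J : Ideal (PS O τ)} {f : dec P → M2 (PS O τ)}
  (hU : Uni r s (fun x => cy p O x.1) g a b I f)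
  {Ω : Type} [Field Ω] [Algebra O Ω] {x : PS O τ →ₐ[O] Ω} (hx : ∀ u ∈ I, x u = 0)
  (he : Ie p P f (RingHom.ker x)) (h2 : (2 : Ω) ≠ 0) {s₀ : dec P} (hs : s₀.1 ∈ inP P)
  (hc : cy p O s₀.1 = -1) (φ : dec P)

include hU hx he h2 hs hc

/-- the unramified quotient at a point of the ordinary locus -/
theorem row_pt : ∃ (w : Fin 2 → Ω) (α : Ω), w ≠ 0 ∧
    (∀ i : dec P, i.1 ∈ inP P → w ᵥ* (f i).map x = w) ∧ w ᵥ* (f φ).map x = α • w ∧
    x ((f s₀ + 1) * f φ).trace = 2 * α ∧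
    x ((f s₀ + 1) * (f φ * f φ + p • 1)).trace = 2 * α ^ 2 + 2 * p := by
  have d : (ptH hU x hx s₀).det = -1 := by rw [ptH_det, hc, map_neg, map_one]
  obtain ⟨w, α, h0, h1, h3⟩ := row_of (I := {i : dec P | i.1 ∈ inP P}) (ρ := ptH hU x hx) (φ := φ)
    (fun i hi => conj_inP φ.2 hi) hs
    (by rw [d]; exact fun e => h2 (by linear_combination -e)) fun s' hs' => by
      ext i j
      have := he s₀ s' hs hs' i j
      rw [d]
      simpa [ptH, hc, RingHom.mem_ker, Matrix.mul_apply, Fin.sum_univ_two, one_apply, apply_ite x]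
        using this
  obtain ⟨-, k1, k2⟩ := ine_of h0 h1 h3 hs
  have k3 := (of_row h0 (h1 _ hs)).1
  rw [d, neg_smul, one_smul, sub_neg_eq_add, sub_neg_eq_add, one_add_one_eq_two] at k1 k2 k3
  have e : ∀ m, ((f s₀ + 1) * m).map x = (ptH hU x hx s₀ + 1) * m.map x := fun m => by
    rw [Matrix.map_mul, Matrix.map_add _ (map_add x), Matrix.map_one _ (map_zero _) (map_one _)]
    rfl
  refine ⟨w, α, h0, h1, h3, by rw [tr_map, e]; exact k1, ?_⟩
  rw [mul_add, trace_add, map_add, tr_map, e, Matrix.map_mul, mul_smul_comm, trace_smul, map_nsmul,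
    tr_map, e, Matrix.map_one _ (map_zero _) (map_one _), mul_one, k3, nsmul_eq_mul, mul_comm _ 2]
  exact congrArg (· + _) k2

theorem ord_of (hd : x (dl f s₀ φ) ≠ 0) : O2.Ord P φ fun y => (f y).map x := by
  obtain ⟨w, α, h0, h1, h3, h4, -⟩ := row_pt hU hx he h2 hs hc φ
  refine ⟨w, α, h0, fun e => hd ?_, h1, h3⟩
  rw [dl, map_sub, map_pow, h4, map_ofNat, mul_pow, e]
  norm_num

end fld

/-- an algebraically closed field -/
theorem ex_Om (O : Type) [CommRing O] [IsDomain O] : ∃ (Ω : Type) (_ : Field Ω) (_ : Algebra O Ω),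
    IsAlgClosed Ω ∧ FaithfulSMul O Ω :=
  ⟨AlgebraicClosure (FractionRing O), _, _, inferInstance,
    (faithfulSMul_iff_algebraMap_injective O _).2
      ((algebraMap (FractionRing O) _).injective.comp (IsFractionRing.injective O _))⟩

variable (O) in
theorem two_ne {Ω : Type} [Field Ω] [Algebra O Ω] [CharZero O] [FaithfulSMul O Ω] : (2 : Ω) ≠ 0 :=
  fun e => (two_ne_zero : (2 : O) ≠ 0) (FaithfulSMul.algebraMap_injective O Ω (by
    rw [map_ofNat, map_zero, e]))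

/-- the ordinary component is invariant under conjugation -/
theorem inv_of [Finite F] [Cf O] [CharZero O] [Algebra O F] {P : Id} {τ : Type} [Fintype τ]
    {r : dec P →* M2 F} {s : F → O} {g : τ → dec P} {a b : τ → Fin 2} {I J : Ideal (PS O τ)}
    {f : dec P → M2 (PS O τ)} (hU : Uni r s (fun x => cy p O x.1) g a b I f)
    (hs : ∀ x, algebraMap O F (s x) = x) (hJ : J.IsPrime) (sJ : Sat J) (le : I ≤ J)
    (he : Ie p P f J) {s₀ φ : dec P} (h0 : s₀.1 ∈ inP P) (hc : cy p O s₀.1 = -1)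
    (hd : dl f s₀ φ ∉ J) (hA : AllF P φ I J f) : RT.Inv I J f := by
  obtain ⟨K, k1, -, k3, k4, k5⟩ := hU.ex_prime hs hJ sJ le
  obtain ⟨Ω, _, _, _, _⟩ := ex_Om O
  intro A _ _ _ y y' c c' a1 a2 a3 a4 a5 a6 u hu
  refine k4 A y y' c c' a1 a2 a3 a4 a5 a6 u ((k1.mem_or_mem (k5 Ω (dl f s₀ φ * u)
    fun x x' c c' b1 b2 b3 b4 => ?_)).resolve_left fun e => hd (k3 e))
  rw [map_mul, mul_eq_zero, or_iff_not_imp_left]
  refine fun e => hA Ω x' b2 ?_ u hu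
  have e1 : x' (dl f s₀ φ) = x (dl f s₀ φ) := by
    rw [dl_map, dl_map, dl, dl, b4, b4, show c' * (f s₀).map x * c + 1 =
      c' * ((f s₀).map x + 1) * c by rw [mul_add, add_mul, mul_one, mul_eq_one_comm.1 b3],
      show ∀ X Y : M2 Ω, c' * X * c * (c' * Y * c) = c' * (X * Y) * c from fun X Y => by
        rw [mul_assoc, ← mul_assoc c, ← mul_assoc c, b3, one_mul, ← mul_assoc, mul_assoc c'],
      trace_mul_cycle, b3, one_mul]
  simpa only [b4] using (ord_of hU (fun v hv => b1.ker v (le hv))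
    (fun s s' h h' i j => b1.ker _ (he s s' h h' i j)) (two_ne O) h0 hc φ (e1 ▸ e)).conj b3

variable {Z : Si p O} {C : Fr Z F} [Algebra O F]

/-- **the ordinary component** -/
structure Os (D : Pd C) (η : MonoidAlgebra O Z.G) (J : ∀ t, Ideal (PS O (C.τ t))) : Prop where
  fin : ∀ 𝔮 : Ideal D.R, 𝔮.IsPrime → D.J0 J ≤ 𝔮 → D.L0 𝔮 → Module.Finite O (D.R ⧸ 𝔮)
  ine : ∀ k, Ie p (C.P (C.u k)) (C.f (C.u k)) (J (C.u k))
  del : ∀ k (s φ : dec (C.P (C.u k))), s.1 ∈ inP (C.P (C.u k)) → cy p O s.1 = -1 →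
    Fb p (C.P (C.u k)) φ → ∀ 𝔮 : Ideal D.R, 𝔮.IsPrime → D.J0 J ≤ 𝔮 →
    (∀ o, MvPowerSeries.C o ∈ 𝔮 → o = 0) → D.L0 𝔮 → D.io _ (dl (C.f _) s φ) ∉ 𝔮
  ne : ∀ k (s φ : dec (C.P (C.u k))), s.1 ∈ inP (C.P (C.u k)) → cy p O s.1 = -1 →
    Fb p (C.P (C.u k)) φ → dl (C.f _) s φ ∉ J (C.u k)
  ord : ∀ (φ : D.R →ₐ[O] O) (ρ : Z.H →* M2 O), D.Gp φ ρ → D.J0 J ≤ RingHom.ker φ →
    ∃ b, Z.Ord η (fun s => (ρ s).trace) b

variable {D : Pd C} (h : D.Ok) {η : MonoidAlgebra O Z.G}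
include h

/-- descent of ordinary vectors to level zero -/
theorem down_W (hη : ∀ y ∈ η.coeff.support, Z.Tm y) {𝔮 : Ideal D.R} (hq : D.L0 𝔮)
    (unb : Unb O (D.th η) (↑(W D) ∩ (Kl D.M.Y 𝔮 ∩ D.FS))) {o : O} (ho : o ≠ 0) :
    ∃ z : Ym Z C.t, D.κ z ∈ W D ∧ D.κ z ∈ Kl D.M.Y 𝔮 ∧ o • Z.op η z.1 ≠ 0 := by
  obtain ⟨Λ, _, π, c, h1, h2, h3⟩ := h.dsc
  obtain ⟨v, ⟨v1, v2, v3⟩, h4⟩ := unb (c * o) (mul_ne_zero h1 ho)
  by_contra! hn
  refine h4 ((mul_smul c o _).trans ((h3 (o • D.th η v) (fun s hs => ?_) fun s => ?_).2 fun i => ?_))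
  · have := LinearMap.congr_fun (com_thY D.M hη fun y _ => com_z D.M _ (zg s)).eq v
    rw [End.mul_apply, End.mul_apply, v3 s hs] at this
    rw [LinearMap.map_smul_of_tower]
    exact congrArg _ this.symm
  · rw [smul_comm, ← map_smul, v2 _ (hq.2 s), map_zero, smul_zero]
  · obtain ⟨z, hz⟩ := (h.krg _).2 ((h3 v v3 fun s => v2 _ (hq.2 s)).1 i)
    obtain ⟨z', e1, e2⟩ := h.k_th hη z
    have := hn z (hz ▸ W_map (fun _ _ => h2 i _) v v1)
      fun u hu => by rw [hz, ← map_smul, v2 u hu, map_zero]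
    rw [← e1, ← Submodule.coe_smul, Submodule.coe_eq_zero] at this
    rw [LinearMap.map_smul_of_tower, ← End.mul_apply, th_eq,
      ← (com_thY D.M hη fun y _ => (h2 i _).symm).eq, End.mul_apply, ← hz, ← th_eq, ← e2,
      ← map_smul, this, map_zero]

theorem k_fv (hZ : Z.Ok) {z : Ym Z C.t} (hz : D.κ z ∈ Sp D) : z.1 ∈ Fv Z.a Z.U :=
  fv_of hZ ⟨hZ.lev.1, le_rfl, hZ.atx⟩ (fun u hu => z.2.1 u
    (Top.Si.mem_aw.2 ⟨hu.1, Subgroup.mem_iInf.1 hu.2, fun _ hi => hi.elim⟩)) fun k g hg => by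
    obtain ⟨z', e1, e2⟩ := h.k_ak k g z
    rw [← e1, h.kinj (e2.trans (mem_Sp.1 hz k g hg))]

variable [CharP F p] [CharZero O] (hZ : Z.Ok) (hO : Z.Orl) (hC : C.Ok)
include hZ hO hC

omit [CharZero O] in
/-- the Hecke operators at a point of the ordinary locus -/
theorem k_eig {𝔮 : Ideal D.R} {k : Z.J} {s φ : dec (C.P (C.u k))} (hs : s.1 ∈ inP (C.P (C.u k)))
    (hc : cy p O s.1 = -1) (hφ : Fb p (C.P (C.u k)) φ) {a b : O}
    (ha : D.io _ ((C.f _ s + 1) * C.f _ φ).trace - algebraMap O D.R a ∈ 𝔮)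
    (hb : D.io _ ((C.f _ s + 1) * (C.f _ φ * C.f _ φ + p • 1)).trace - algebraMap O D.R b ∈ 𝔮)
    {z : Ym Z C.t} (h1 : D.κ z ∈ W D) (h2 : D.κ z ∈ Kl D.M.Y 𝔮) :
    a • (Z.x k).Tv Z.a z.1 = b • z.1 := by
  obtain ⟨z', e1, e2⟩ := k_hk h k z
  have e := frb_W h hZ hO hC k hs hφ _ h1
  have e3 : ∀ m, D.io _ ((C.f (C.u k) s + 1) * m).trace =
      ((D.fm _ s - (MvPowerSeries.C (cy p O s.1) : D.R) • 1) * m.map (D.io _)).trace := fun m => by
    rw [tr_map, Matrix.map_mul, Matrix.map_add _ (map_add _),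
      Matrix.map_one _ (map_zero _) (map_one _), hc, map_neg, map_one, neg_smul, one_smul,
      sub_neg_eq_add]
    rfl
  have a1 := h2 _ ha
  have b1 := h2 _ hb
  rw [sub_smul, sub_eq_zero, e3, algebraMap_smul] at a1 b1
  rw [Matrix.map_add _ (map_add _), Matrix.map_mul, show (p • (1 : M2 _)).map (D.io (C.u k)) =
    p • 1 from (map_nsmul (D.io (C.u k)).mapMatrix p 1).trans (by rw [map_one])] at b1
  have e4 : b • D.κ z = hk D D.M k (a • D.κ z) := by rw [← a1, ← b1]; exact e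
  rw [LinearMap.map_smul_of_tower, ← e2, ← map_smul, ← map_smul] at e4
  rw [← e1]
  exact (congrArg Subtype.val (h.kinj e4)).symm

omit [CharZero O] in
theorem ie_W {𝔮 : Ideal D.R} (hq : ((W D).map (D.th η)).annihilator ≤ 𝔮) (k : Z.J) :
    Ie p (C.P (C.u k)) (C.f (C.u k)) (𝔮.comap (D.io _)) := fun s s' hs hs' i j => hq
  (Submodule.mem_annihilator.2 (by
    rintro _ ⟨v, hv, rfl⟩
    rw [← map_smul]
    refine (congrArg _ (Eq.trans ?_ (ine_W h hZ hO hC k hs hs' i j v hv))).trans (map_zero _)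
    congr 1
    simp [Pd.fm, Matrix.mul_apply, Fin.sum_univ_two, one_apply, apply_ite (D.io _)]))

omit hZ hO hC [CharP F p] [CharZero O] in
theorem i_W {𝔮 : Ideal D.R} (hq : ((W D).map (D.th η)).annihilator ≤ 𝔮) : D.I0 ≤ 𝔮 :=
  fun u hu => hq (Submodule.mem_annihilator.2 fun v _ => h.kil v u hu)

/-- the eigenvalue of a Frobenius element is not `± 1` -/
theorem del_of (hη : ∀ y ∈ η.coeff.support, Z.Tm y) {𝔮 : Ideal D.R} (q1 : 𝔮.IsPrime)
    (q2 : ((W D).map (D.th η)).annihilator ≤ 𝔮) (q3 : ∀ o, MvPowerSeries.C o ∈ 𝔮 → o = 0)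
    (q4 : D.L0 𝔮) (unb : Unb O (D.th η) (↑(W D) ∩ (Kl D.M.Y 𝔮 ∩ D.FS))) {k : Z.J}
    {s φ : dec (C.P (C.u k))} (hs : s.1 ∈ inP (C.P (C.u k))) (hc : cy p O s.1 = -1)
    (hφ : Fb p (C.P (C.u k)) φ) : D.io _ (dl (C.f _) s φ) ∉ 𝔮 := fun hd => by
  let Ω := FractionRing (D.R ⧸ 𝔮)
  let x : D.R →ₐ[O] Ω := (IsScalarTower.toAlgHom O (D.R ⧸ 𝔮) Ω).comp (Ideal.Quotient.mkₐ O 𝔮)
  have hx : ∀ u, x u = 0 ↔ u ∈ 𝔮 := fun u =>
    (map_eq_zero_iff _ (IsFractionRing.injective (D.R ⧸ 𝔮) Ω)).trans Ideal.Quotient.eq_zero_iff_mem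
  have h2 : (2 : Ω) ≠ 0 := fun e => two_ne_zero (q3 2 ((hx _).1 (by rw [map_ofNat, map_ofNat, e])))
  obtain ⟨-, α, -, -, -, a1, a2⟩ := row_pt (hC.uni _) (x := x.comp (D.io _))
    (fun u hu => (hx _).2 (i_W h q2 (io_I0 hu)))
    (fun s s' a b i j => (hx _).2 (ie_W h hZ hO hC q2 k s s' a b i j)) h2 hs hc φ
  have a3 : x.comp (D.io _) (dl (C.f _) s φ) = 0 := (hx _).2 hd
  rw [dl, map_sub, map_pow, a1, map_ofNat] at a3
  obtain ⟨a, e1, e2⟩ : ∃ a : O, a * a = 1 ∧ algebraMap O Ω a = α := by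
    rcases mul_self_eq_one_iff.1 (mul_left_cancel₀ (mul_ne_zero h2 h2)
      (show 2 * 2 * (α * α) = 2 * 2 * 1 by linear_combination a3)) with e | e
    exacts [⟨1, by simp, by simp [e]⟩, ⟨-1, by simp, by simp [e]⟩]
  obtain ⟨o, o1, o2⟩ := hO.ram Z.U k ⟨hZ.lev.1, le_rfl, hZ.atx⟩
  obtain ⟨z, z1, z2, z3⟩ := down_W h hη q4 unb (mul_ne_zero o1 two_ne_zero)
  have e3 := k_eig h hZ hO hC hs hc hφ (a := 2 * a) (b := 2 * a ^ 2 + 2 * p)
    ((hx _).1 (by rw [map_sub, x.commutes, map_mul, map_ofNat, e2]; exact sub_eq_zero.2 a1))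
    ((hx _).1 (by
      rw [map_sub, x.commutes, map_add, map_mul, map_mul, map_pow, map_ofNat, map_natCast, e2]
      exact sub_eq_zero.2 a2)) z1 z2
  have e4 : (Z.x k).Tv Z.a ((2 : O) • z.1) = (a * (p + 1)) • (2 : O) • z.1 := by
    have := congrArg (a • ·) e3
    simp only [smul_smul] at this
    rw [map_smul, smul_smul, show (2 : O) = a * (2 * a) by linear_combination (-2) * e1, this]
    congr 1
    linear_combination (2 * a - 2 * a * (p + 1)) * e1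
  have := o2 _ (Submodule.smul_mem _ 2 (k_fv h hZ (mem_Wo.1 z1).1)) (by
    rw [e4, map_smul, e4, smul_smul, ← Nat.cast_smul_eq_nsmul O]
    congr 1
    push_cast
    linear_combination (p + 1) ^ 2 * e1)
  exact z3 (by rw [← map_smul, mul_smul, this, map_zero])

/-- the target -/
theorem ord_pt (hη : ∀ y ∈ η.coeff.support, Z.Tm y) {φ : D.R →ₐ[O] O} {ρ : Z.H →* M2 O}
    (gp : D.Gp φ ρ) (q2 : ((W D).map (D.th η)).annihilator ≤ RingHom.ker φ)
    (unb : Unb O (D.th η) (↑(W D) ∩ (Kl D.M.Y (RingHom.ker φ) ∩ D.FS))) :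
    ∃ b, Z.Ord η (fun s => (ρ s).trace) b := by
  have key : ∀ k, ∃ b : O, ∀ z : Ym Z C.t, D.κ z ∈ W D → D.κ z ∈ Kl D.M.Y (RingHom.ker φ) →
      (Z.x k).Tv Z.a ((2 : O) • z.1) = b • (2 : O) • z.1 := fun k => by
    obtain ⟨s, hs, hc⟩ := ex_s0 (O := O) (hC.u k).1
    obtain ⟨ψ, hψ⟩ := CH.Sy.ex_fb (hC.u k).1
    let ψ' : dec (C.P (C.u k)) := ⟨ψ, CH.Sy.fb_dec (hC.u k).1 hψ⟩
    let Ω := FractionRing O
    let x : D.R →ₐ[O] Ω := (Algebra.ofId O Ω).comp φ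
    have inj := IsFractionRing.injective O Ω
    have hx : ∀ u, x u = 0 ↔ u ∈ RingHom.ker φ := fun u => map_eq_zero_iff _ inj
    have k0 : ∀ u ∈ C.I (C.u k), x.comp (D.io _) u = 0 :=
      fun u hu => (hx _).2 (i_W h q2 (io_I0 hu))
    obtain ⟨w, α, w0, -, w1, a1, a2⟩ := row_pt (hC.uni _) k0
      (fun s s' a b i j => (hx _).2 (ie_W h hZ hO hC q2 k s s' a b i j)) (two_ne O) hs hc ψ'
    obtain ⟨a, rfl⟩ := IsIntegrallyClosed.isIntegral_iff.1
      (O2.eig_int (O := O) (fun i j => isIntegral_algebraMap) w0 w1)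
    have d := ptH_det (hC.uni _) _ k0 ψ'
    have c2 := congrArg (w ᵥ* ·) (ch2 ((C.f _ ψ').map (x.comp (D.io _))))
    simp only [← vecMul_vecMul, w1, smul_vecMul, vecMul_sub, vecMul_smul, vecMul_one, smul_smul,
      ← sub_smul] at c2
    have c3 := smul_left_injective Ω w0 c2
    rw [← tr_map, show ((C.f _ ψ').map (x.comp (D.io _))).det = _ from d] at c3
    have c4 : a * a = φ (D.io _ (C.f _ ψ').trace) * a - cy p O ψ := inj (by
      rw [map_mul, map_sub, map_mul]; exact c3)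
    have c5 : IsUnit (cy p O ψ) := (Units.isUnit _).map _
    obtain ⟨a', ha'⟩ := (isUnit_of_mul_isUnit_left (show IsUnit
      (a * (φ (D.io _ (C.f _ ψ').trace) - a)) by
        rwa [mul_sub, c4, mul_comm, sub_sub_cancel])).exists_left_inv
    refine ⟨a + a' * p, fun z z1 z2 => ?_⟩
    have e3 := k_eig h hZ hO hC hs hc (φ := ψ') hψ (a := 2 * a) (b := 2 * a ^ 2 + 2 * p)
      ((hx _).1 (by rw [map_sub, x.commutes, map_mul, map_ofNat]; exact sub_eq_zero.2 a1))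
      ((hx _).1 (by
        rw [map_sub, x.commutes, map_add, map_mul, map_mul, map_pow, map_ofNat, map_natCast]
        exact sub_eq_zero.2 a2)) z1 z2
    have := congrArg (a' • ·) e3
    simp only [smul_smul] at this
    rw [map_smul, smul_smul, show (2 : O) = a' * (2 * a) by linear_combination (-2) * ha', this]
    congr 1
    linear_combination (2 * a - 2 * (a + a' * p)) * ha'
  choose b hb using key
  refine ⟨b, fun o ho => ?_⟩
  obtain ⟨z, z1, z2, z3⟩ := down_W h hη gp.l0 unb (mul_ne_zero ho two_ne_zero)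
  exact ⟨(2 : O) • z.1, Submodule.smul_mem _ _ ⟨h.k_eg gp.tr_mem z2, k_fv h hZ (mem_Wo.1 z1).1⟩,
    fun k => hb k z z1 z2, by rwa [map_smul, smul_smul]⟩

/-- the seed -/
theorem seed [Cf O] (hη : ∀ y ∈ η.coeff.support, Z.Tm y) {ρ : Z.H →* M2 O}
    (hρ : LiftC C.r C.s (fun s => cy p O s.1) ρ) (hu : Ub Z ρ) {b : Z.J → O}
    (hb : ∀ k, IsUnit (b k)) (ord : Z.Ord η (fun s => (ρ s).trace) b) : ∃ φ, D.Gp φ ρ ∧
      Unb O (D.th η) (↑(W D) ∩ (Kl D.M.Y (RingHom.ker φ) ∩ D.FS)) := by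
  obtain ⟨φ, h1, h2⟩ := h.gps ρ hρ hu
  refine ⟨φ, h1, fun o ho => ?_⟩
  obtain ⟨z, ⟨z1, z2⟩, z0, z3⟩ := ord o ho
  have z4 : z ∈ Mt Z C.t := eg_mt hZ (fun s => by
    have := fun i => (ker_res hC.sec).2 (hρ.red s i i)
    rw [← ker_res hC.sec, Fr.t, map_sub, hC.sec, Matrix.trace_fin_two, Matrix.trace_fin_two,
      map_add]
    simp only [Algebra.algebraMap_self, RingHom.id_apply, map_sub, hC.sec, sub_eq_zero] at this
    rw [this, this, sub_self]) z1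
  let y : Ym Z C.t := ⟨z, Top.Si.fv_le_mp z2, z4⟩
  obtain ⟨z', e1, e2⟩ := h.k_th hη y
  refine ⟨D.κ y, ⟨mem_Wo.2 ⟨mem_Sp.2 fun k g hg => ?_, fun k => ?_⟩, h2 _ z1,
    fun s _ => h.k_fix _ _⟩, fun e => z3 ?_⟩
  · obtain ⟨y', e3, e4⟩ := h.k_ak k g y
    rw [← e4]
    exact congrArg _ (Subtype.ext (e3.trans (z2 _ ((hZ.atx k).1 g hg))))
  · obtain ⟨y', e3, e4⟩ := k_hk h k y
    obtain ⟨j, hj⟩ := h.ult.sm (D.κ y)
    have ε := (Fintype.equivFin (Z.J × Fin 3)).symm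
    obtain ⟨n, n0, hn⟩ := unit_ord (hb k) ((Pd.lv_fin (h.unf ε) h.cof j).subset (by
      rintro _ ⟨o, rfl⟩
      exact Submodule.smul_of_tower_mem _ o hj))
    exact Od.of_eig (fun o w => LinearMap.map_smul_of_tower _ o w)
      (by rw [← e4, ← map_smul]; exact congrArg _ (Subtype.ext (e3.trans (z0 k)))) n0 hn
  · rw [← e2, ← map_smul, ← map_zero D.κ] at e
    exact e1 ▸ congrArg Subtype.val (h.kinj e)

/-- **the ordinary component through the seed** -/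
theorem core [Cf O] (hη : Z.Ty η) {ρ : Z.H →* M2 O}
    (hρ : LiftC C.r C.s (fun s => cy p O s.1) ρ) (hu : Ub Z ρ) {b : Z.J → O}
    (hb : ∀ k, IsUnit (b k)) (ord : Z.Ord η (fun s => (ρ s).trace) b) : ∃ φ, D.Gp φ ρ ∧
      ∀ J : ∀ t, Ideal (PS O (C.τ t)),
        (∀ t ∉ Set.range C.u, ∃ g, Cm (C.I t) (φ.comp (D.io t)) (J t) g) →
        (∀ k, ∃ (n : ℕ) (ψ : dec (C.P (C.u k))), n ≤ 4 ∧ Par (J (C.u k)) n ∧
          Fb p (C.P (C.u k)) ψ ∧ AllF _ ψ (C.I _) (J _) (C.f _)) → Os D η J := by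
  classical
  obtain ⟨φ, gp, unb⟩ := seed h hZ hO hC hη.1 hρ hu hb ord
  refine ⟨φ, gp, fun J h1 h2 => ?_⟩
  obtain ⟨Ω, _, _, _, _⟩ := ex_Om O
  have inj := FaithfulSMul.algebraMap_injective O Ω
  have c0 : ∀ (φ : D.R →ₐ[O] O) o, MvPowerSeries.C o ∈ RingHom.ker φ → o = 0 := fun φ o e =>
    (φ.commutes o).symm.trans e
  have q2 : ((W D).map (D.th η)).annihilator ≤ RingHom.ker φ := fun u hu => by
    by_contra e
    obtain ⟨v, ⟨v1, v2, -⟩, h0⟩ := unb (φ u) e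
    have e1 : (u - algebraMap O D.R (φ u)) • v = 0 := v2 _ (by simp [RingHom.mem_ker])
    have e2 : u • D.th η v = 0 := Submodule.mem_annihilator.1 hu _ ⟨v, v1, rfl⟩
    rw [sub_smul, sub_eq_zero] at e1
    rw [← map_smul, e1, map_smul, algebraMap_smul] at e2
    exact h0 e2
  have : ∀ t, ∃ (n : ℕ) (g : PS O (C.τ t)), Par (J t) n ∧
      n ≤ 3 + (if t ∈ Finset.univ.image C.u then 1 else 0) ∧ φ (D.io t g) ≠ 0 ∧
      ∀ x : D.R →ₐ[O] Ω, Pt ((W D).map (D.th η)).annihilator x → x (D.io t g) ≠ 0 →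
        ∀ u ∈ J t, x (D.io t u) = 0 := fun t => by
    by_cases ht : t ∈ Set.range C.u
    · obtain ⟨k, rfl⟩ := ht
      obtain ⟨n, ψ, a1, a2, a3, a4⟩ := h2 k
      obtain ⟨s, hs, hc⟩ := ex_s0 (O := O) (hC.u k).1
      refine ⟨n, dl (C.f _) s ψ, a2, by rwa [if_pos (by simp)], del_of h hZ hO hC hη.1
        (RingHom.ker_isPrime φ) q2 (c0 φ) gp.l0 unb hs hc a3, fun x hx e => ?_⟩
      have k0 : ∀ u ∈ C.I (C.u k), x.comp (D.io _) u = 0 :=
        fun u hu => i_W h (𝔮 := RingHom.ker x) hx.ker (io_I0 hu)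
      exact a4 Ω (x.comp (D.io _)) ⟨k0, fun u => hx.int _⟩ (ord_of (hC.uni _) k0
        (ie_W h hZ hO hC (𝔮 := RingHom.ker x) hx.ker k) (two_ne O) hs hc ψ e)
    · obtain ⟨g, c⟩ := h1 t ht
      refine ⟨3, g, c.par, le_self_add, c.ne, fun x hx e u hu => ?_⟩
      have := i_W h (𝔮 := RingHom.ker x) hx.ker (io_I0 (c.mul u hu))
      rw [RingHom.mem_ker, map_mul, map_mul] at this
      exact (mul_eq_zero.1 this).resolve_left e
  choose n g j1 j2 j3 j4 using this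
  obtain ⟨b1, -, b3⟩ := h.aux.blk hC.sur fun t => .inl (j1 t)
  have hn : ∑ t, n t + D.n1 ≤ D.r := by
    have e1 := Finset.sum_le_sum fun t (_ : t ∈ Finset.univ) => j2 t
    have e2 := Finset.card_image_le (s := Finset.univ) (f := C.u)
    have e3 := h.num
    simp only [Finset.sum_add_distrib, Finset.sum_ite_mem, Finset.univ_inter, Finset.sum_const,
      Finset.card_univ, smul_eq_mul, mul_one] at e1 e2
    omega
  have pt : ∀ x : D.R →ₐ[O] Ω, Pt ((W D).map (D.th η)).annihilator x →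
      x (∏ t, D.io t (g t)) ≠ 0 → ∀ u ∈ D.J0 J, x u = 0 := fun x hx e => by
    rw [map_prod, Finset.prod_ne_zero_iff] at e
    exact (sup_le (sumI_le.2 fun t => j4 t x hx (e t (Finset.mem_univ t))) fun u hu =>
      i_W h (𝔮 := RingHom.ker x) hx.ker (Ideal.mem_sup_right hu) : _ ≤ RingHom.ker x)
  have hg : φ (∏ t, D.io t (g t)) ≠ 0 := by
    rw [map_prod]
    exact Finset.prod_ne_zero_iff.2 fun t _ => j3 t
  have ε := (Fintype.equivFin (Z.J × Fin 3)).symm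
  obtain ⟨a1, a2⟩ := opa hC.p_mem (h.unf ε) h.cof h.mem (by simpa only [rho_inr] using h.quad)
    (op h hZ hη) φ (fun o ho => (unb o ho).imp fun v hv => ⟨⟨hv.1.1, hv.1.2.1⟩, hv.2⟩) b1
    (b3.le.trans (Nat.cast_le.2 (by omega))) hg Ω pt
  simp only [rho_inr] at a2
  have un : ∀ 𝔮 : Ideal D.R, 𝔮.IsPrime → D.J0 J ≤ 𝔮 → (∀ o, MvPowerSeries.C o ∈ 𝔮 → o = 0) →
      D.L0 𝔮 → Unb O (D.th η) (↑(W D) ∩ (Kl D.M.Y 𝔮 ∩ D.FS)) := fun 𝔮 q1 q2 q3 q4 =>
    (a2 𝔮 q1 q2).1 q3 D.S fun s hs => ⟨q4.1 s hs, q4.2 s⟩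
  have le : D.J0 J ≤ RingHom.ker φ := fun u hu => inj ((pt ((Algebra.ofId O Ω).comp φ)
    ⟨fun v hv => (congrArg (algebraMap O Ω) (q2 hv)).trans (map_zero _),
      fun _ => isIntegral_algebraMap⟩ (fun e => hg (inj (e.trans (map_zero _).symm))) u hu).trans
    (map_zero _).symm)
  refine ⟨fun 𝔮 q1 q2 q4 => (a2 𝔮 q1 q2).2 fun s => ?_, fun k s s' hs hs' i j =>
    h.aux.mem_blk (fun t => φ.comp (D.io t)) (fun t _ u hu => le (Ideal.mem_sup_left (mem_sumI hu)))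
      (ie_W h hZ hO hC a1 k s s' hs hs' i j), fun k s ψ hs hc hψ 𝔮 q1 q2 q3 q4 =>
    del_of h hZ hO hC hη.1 q1 (a1.trans q2) q3 q4 (un 𝔮 q1 q2 q3 q4) hs hc hψ,
    fun k s ψ hs hc hψ e => del_of h hZ hO hC hη.1 (RingHom.ker_isPrime φ) q2 (c0 φ) gp.l0 unb hs hc
      hψ (le (Ideal.mem_sup_left (mem_sumI e))), fun φ' ρ' gp' e => ord_pt h hZ hO hC hη.1 gp'
    (a1.trans e) (un _ (RingHom.ker_isPrime φ') e (c0 φ') gp'.l0)⟩
  by_cases hs : s ∈ D.S
  · exact ⟨0, 0, by simpa using q4.1 s hs, by simpa using q4.2 s⟩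
  · obtain ⟨c, hc⟩ := h.cst s hs
    exact ⟨c, 0, by simp [hc], by simpa using q4.2 s⟩

end Vale.Agent.P022K.LO
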