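import Vale.Agent.P022K.RT.Trn
import Vale.Agent.P022K.O2.Asm
import Vale.Agent.P022K.LO.St

/-!
# P022K, block LO: transport of ordinary points between conjugate primes
-/

set_option linter.all false

noncomputable section

namespace Vale.Agent.P022K.LO.Tp

open IsLocalRing MvPowerSeries NumberField Matrix
open scoped Pointwise
open Vale.Agent.P022
open Vale.Agent.P022.H443 (inP)
open Vale.Agent.P022D.L2b (M2)
open Vale.Agent.P022D.Core (PS)
open Vale.Agent.P022D.W (dec)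
open Vale.Agent.P022E.GW (Ov Fb)
open Vale.Agent.P022K.PL (Cf)
open Vale.Agent.P022K.GW (Id)
open Vale.Agent.P022K.RT (Trn Pt cjH map_inv)
open Vale.Agent.P022K.O2 (Ord AllF)

variable {P Q : Id} {σ : GQ}

theorem dec_iff (e : σ • P = Q) {y : GQ} : y ∈ dec Q ↔ σ⁻¹ * y * σ ∈ dec P := by
  subst e
  refine ⟨fun a x => ?_, fun a x => ?_⟩
  · have := a (σ • x)
    rw [Ideal.mem_pointwise_smul_iff_inv_smul_mem, Ideal.mem_pointwise_smul_iff_inv_smul_mem,
      inv_smul_smul] at this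
    rwa [mul_smul, mul_smul]
  · rw [Ideal.mem_pointwise_smul_iff_inv_smul_mem, Ideal.mem_pointwise_smul_iff_inv_smul_mem,
      ← a (σ⁻¹ • x), mul_smul, mul_smul, smul_inv_smul]

theorem fb_iff (e : σ • P = Q) {l : ℕ} {y : GQ} : Fb l Q y ↔ Fb l P (σ⁻¹ * y * σ) := by
  subst e
  refine ⟨fun a x => ?_, fun a x => ?_⟩
  · have := a (σ • x)
    rwa [Ideal.mem_pointwise_smul_iff_inv_smul_mem, smul_sub, smul_pow', inv_smul_smul, smul_smul,
      smul_smul] at this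
  · have := a (σ⁻¹ • x)
    rw [Ideal.mem_pointwise_smul_iff_inv_smul_mem, smul_sub, smul_pow']
    rwa [mul_smul, mul_smul, smul_inv_smul] at this

theorem in_iff (e : σ • P = Q) {y : GQ} : y ∈ inP Q ↔ σ⁻¹ * y * σ ∈ inP P := by
  have k : ∀ {P : Id} {y : GQ}, y ∈ inP P ↔ Fb 1 P y :=
    forall_congr' fun x => by rw [pow_one]
  rw [k, k, fb_iff e]

variable {k : ∀ y ∈ dec Q, σ⁻¹ * y * σ ∈ dec P}

theorem sur (e : σ • P = Q) (y : dec P) : ∃ z, cjH σ k z = y :=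
  ⟨⟨σ * y * σ⁻¹, (dec_iff e).2 (by simp [mul_assoc])⟩, Subtype.ext (by simp [cjH, mul_assoc])⟩

theorem in_cj (e : σ • P = Q) {y : dec Q} : (cjH σ k y).1 ∈ inP P ↔ y.1 ∈ inP Q :=
  (in_iff e).symm

theorem fb_cj (e : σ • P = Q) {l : ℕ} {y : dec Q} : Fb l P (cjH σ k y) ↔ Fb l Q y :=
  (fb_iff e).symm

theorem ord_iff {A : Type} [CommRing A] (e : σ • P = Q) {φ : dec Q} {ρ : dec P → M2 A} :
    Ord Q φ (fun y => ρ (cjH σ k y)) ↔ Ord P (cjH σ k φ) ρ :=
  exists_congr fun w => exists_congr fun α => and_congr_right fun _ => and_congr_right fun _ =>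
    and_congr_left fun _ => ⟨fun h i hi => by
      obtain ⟨z, rfl⟩ := sur (k := k) e i
      exact h z ((in_cj e).1 hi), fun h i hi => h _ ((in_cj e).2 hi)⟩

theorem ord_cj {A : Type} [CommRing A] {φ : dec P} {ρ : dec P → M2 A} {c c' : M2 A}
    (h : c * c' = 1) : Ord P φ (fun y => c * ρ y * c') ↔ Ord P φ ρ := by
  have h' := mul_eq_one_comm.1 h
  refine ⟨fun o => ?_, O2.Ord.conj h'⟩
  have := o.conj h
  simpa only [← mul_assoc, h', one_mul, mul_assoc _ c' c, mul_one] using this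

/-- **ordinarity at one prime gives it at all primes** -/
theorem ord_all {A : Type} [CommRing A] (r : GQ →* M2 A) (e : σ • P = Q) {φ : dec Q}
    (h : Ord P (cjH σ k φ) fun y => r y) : Ord Q φ fun y => r y := by
  have h1 : r σ⁻¹ * r σ = 1 := by rw [← map_mul, inv_mul_cancel, map_one]
  refine (ord_cj h1).1 ?_
  simp only [← map_mul]
  exact (ord_iff e).2 h

section

variable {O τ₁ τ₂ : Type} [CommRing O] [IsDomain O] [IsDiscreteValuationRing O] [Cf O]
  [Fintype τ₁] [Fintype τ₂] {I₁ : Ideal (PS O τ₁)} {I₂ J : Ideal (PS O τ₂)} {f₁ : dec Q → M2 (PS O τ₁)}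
  {f₂ : dec P → M2 (PS O τ₂)} {γ γ' : M2 O} {δ : PS O τ₁ →ₐ[O] PS O τ₂}

/-- transport of the ordinary points -/
theorem allF (T : Trn I₁ f₁ I₂ f₂ (cjH σ k) γ γ' δ) (e : σ • P = Q) {φ : dec Q}
    (h : AllF P (cjH σ k φ) I₂ J f₂) : AllF Q φ I₁ (J.comap δ) f₁ := by
  intro Ω _ _ _ x hx o u hu
  obtain ⟨x', h1, rfl⟩ := T.ex_pt hx
  simp only [T.map h1.ker] at o
  exact h Ω x' h1 ((ord_iff e).1 ((ord_cj (map_inv _ T.inv)).1 o)) _ hu

end

section alg

variable {R A : Type} [CommRing R] [CommRing A]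

theorem rel_map (x : R →+* A) (M N : M2 R) (c : R) :
    ((M - c • 1) * (N - 1)).map x = (M.map x - x c • 1) * (N.map x - 1) := by
  ext i j
  simp [Matrix.mul_apply, one_apply, apply_ite x]

theorem rel_cj {c c' : M2 A} (h : c * c' = 1) (M N : M2 A) (d : A) :
    (c * M * c' - d • 1) * (c * N * c' - 1) = c * ((M - d • 1) * (N - 1)) * c' := by
  have h' := mul_eq_one_comm.1 h
  have e1 : c * M * c' - d • 1 = c * (M - d • 1) * c' := by
    rw [mul_sub, sub_mul, Matrix.mul_smul, mul_one, Matrix.smul_mul, h]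
  have e2 : c * N * c' - 1 = c * (N - 1) * c' := by rw [mul_sub, sub_mul, mul_one, h]
  rw [e1, e2, show ∀ a b : M2 A, c * a * c' * (c * b * c') = c * (a * (c' * c) * b) * c' from
    fun a b => by simp only [mul_assoc], h', mul_one]

theorem tr_map (x : R →+* A) (M N : M2 R) :
    x ((M + 1) * N).trace = ((M.map x + 1) * N.map x).trace := by
  simp [Matrix.mul_apply, one_apply, apply_ite x, trace_fin_two]

theorem tr_cj {c c' : M2 A} (h : c * c' = 1) (M N : M2 A) :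
    ((c * M * c' + 1) * (c * N * c')).trace = ((M + 1) * N).trace := by
  have h' := mul_eq_one_comm.1 h
  have e1 : c * M * c' + 1 = c * (M + 1) * c' := by rw [mul_add, add_mul, mul_one, h]
  rw [e1, show ∀ a b : M2 A, c * a * c' * (c * b * c') = c * (a * (c' * c) * b) * c' from
    fun a b => by simp only [mul_assoc], h', mul_one, trace_mul_cycle, h', one_mul]

end alg

section

variable {G₁ G₂ O τ₁ τ₂ : Type} [Group G₁] [TopologicalSpace G₁] [IsTopologicalGroup G₁]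
  [Group G₂] [TopologicalSpace G₂] [IsTopologicalGroup G₂] [CommRing O] [IsDomain O]
  [IsDiscreteValuationRing O] [Cf O] [Fintype τ₁] [Fintype τ₂] {I₁ : Ideal (PS O τ₁)} {I₂ J : Ideal (PS O τ₂)} {f₁ : G₁ → M2 (PS O τ₁)}
  {f₂ : G₂ → M2 (PS O τ₂)} {γ γ' : M2 O} {δ : PS O τ₁ →ₐ[O] PS O τ₂} {i : G₁ → G₂}
  (T : Trn I₁ f₁ I₂ f₂ i γ γ' δ) (le : I₂ ≤ J)
include T le

/-- the inertia relations pull back -/
theorem rel_of {s s' : G₁} {c : O}
    (h : ∀ a b, ((f₁ s - (C c : PS O τ₁) • 1) * (f₁ s' - 1)) a b ∈ J.comap δ) (a b : Fin 2) :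
    ((f₂ (i s) - (C c : PS O τ₂) • 1) * (f₂ (i s') - 1)) a b ∈ J := by
  let x := Ideal.Quotient.mkₐ O J
  have z : ∀ u, x u = 0 ↔ u ∈ J := fun u => Ideal.Quotient.eq_zero_iff_mem
  have k : ∀ u ∈ I₂, x u = 0 := fun u hu => (z u).2 (le hu)
  have e1 := map_inv (algebraMap O _) T.inv (A := PS O τ₂ ⧸ J)
  have e2 := mul_eq_one_comm.1 e1
  have h1 : ((f₁ s - (C c : PS O τ₁) • 1) * (f₁ s' - 1)).map (x.comp δ).toRingHom = 0 :=
    Matrix.ext fun a b => (z _).2 (h a b)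
  rw [rel_map] at h1
  have h2 : ((f₁ s).map (x.comp δ) - algebraMap O _ c • 1) * ((f₁ s').map (x.comp δ) - 1) = 0 :=
    (x.comp δ).commutes c ▸ h1
  rw [T.map k, T.map k, rel_cj e1] at h2
  have h3 := congrArg (fun m => γ'.map (algebraMap O _) * m * γ.map (algebraMap O _)) h2
  simp only [← mul_assoc, e2, one_mul, mul_assoc _ _ (γ.map _), mul_one, mul_zero, zero_mul] at h3
  have h4 : ((f₂ (i s) - (C c : PS O τ₂) • 1) * (f₂ (i s') - 1)).map x.toRingHom = 0 := by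
    rw [rel_map]
    exact h3
  exact (z _).1 (congrFun (congrFun h4 a) b)

/-- the discriminant pulls back -/
theorem tr_of (s φ : G₁) (n : ℕ) : δ (((f₁ s + 1) * f₁ φ).trace ^ 2 - n) ∈ J ↔
    ((f₂ (i s) + 1) * f₂ (i φ)).trace ^ 2 - n ∈ J := by
  let x := Ideal.Quotient.mkₐ O J
  have z : ∀ u, x u = 0 ↔ u ∈ J := fun u => Ideal.Quotient.eq_zero_iff_mem
  have k : ∀ u ∈ I₂, x u = 0 := fun u hu => (z u).2 (le hu)
  have e : x (δ ((f₁ s + 1) * f₁ φ).trace) = x ((f₂ (i s) + 1) * f₂ (i φ)).trace := by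
    have a := tr_map (x.comp δ).toRingHom (f₁ s) (f₁ φ)
    have b := tr_map x.toRingHom (f₂ (i s)) (f₂ (i φ))
    refine a.trans (Eq.trans ?_ b.symm)
    have c := tr_cj (map_inv (algebraMap O (PS O τ₂ ⧸ J)) T.inv) ((f₂ (i s)).map x)
      ((f₂ (i φ)).map x)
    rw [← T.map k, ← T.map k] at c
    exact c
  rw [← z, ← z]
  simp only [map_sub, map_pow, map_natCast, e]

end

end Vale.Agent.P022K.LO.Tp
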