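import Vale.Agent.P022K.LO.St2
import Vale.Agent.P022K.LO.Tp
import Vale.Agent.P022K.LO.Core
import Vale.Agent.P022K.RT.Mid
import Vale.Agent.P022K.O2.All

/-!
# P022K, block LO: ordinary lifts over `ℚ` at the prime two
-/

set_option linter.all false

noncomputable section

namespace Vale.Agent.P022K.LO

open IsLocalRing NumberField Pointwise
open Vale.Agent.P022 Vale.Agent.P022.C
open Vale.Agent.P022.H443 (inP)
open Vale.Agent.P022D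
open Vale.Agent.P022D.L2b (M2)
open Vale.Agent.P022D.Core (PS)
open Vale.Agent.P022D.W (dec)
open Vale.Agent.P022E.GW (Ov Fb)
open Vale.Agent.P022K.PL (Cf)
open Vale.Agent.P022K.GW (Id)
open Vale.Agent.P022K.Top (Si cy)
open Vale.Agent.P022K.RT

theorem Tp.cy_cj {p : ℕ} [Fact p.Prime] {O : Type} [CommRing O] [Algebra ℤ_[p] O] (σ y : GQ) :
    cy p O (σ⁻¹ * y * σ) = cy p O y := by
  rw [Top.cy_mul, Top.cy_mul, mul_right_comm, ← Top.cy_mul, inv_mul_cancel, Top.cy_one, one_mul]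

/-- **LORD** -/
theorem lord (sys : SYS) (pkg : PKG fun _ _ _ _ _ Z => Z.Twi) (qb : QB) : LORD := by
  intro O F _ _ _ _ _ _ _ _ _ _ Z η ρ s r₀ b₀ P V hZ hO hη tw hQ hu hb ho
  classical
  have h2 : Ov 2 (P 2) := hQ.ov 2 hZ.mem
  obtain ⟨C, e, rfl, hC, -, hP⟩ := sys 2 O F Z _ s {P 2} hZ ⟨hQ.rb.sec, hQ.rb.opn, hQ.rb.det,
    hQ.rb.spl, hQ.rb.odd, hQ.rb.two, hQ.rb.unr⟩ (Set.injOn_singleton _ _)
  obtain ⟨t, et⟩ := hP _ rfl (Sy.bad_p hZ h2)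
  obtain ⟨k, rfl⟩ := (hC.ov_iff hZ t).1 (et ▸ h2)
  obtain ⟨D, hD⟩ := pkg 2 O F Z C hZ hC fun _ => tw
  have er : C.r = mr (ρ.comp Z.H.subtype) := by rw [Fr.r, e]
  obtain ⟨L⟩ : Nonempty (Sy.Lc ((mr ρ).comp (dec (P 2)).subtype) C.s fun g => cy 2 O g.1) := by
    have a := hC.tn (C.u k)
    have b := hC.uni (C.u k)
    rw [er] at a b
    exact et ▸ ⟨⟨_, _, _, _, _, _, a, b⟩⟩
  obtain ⟨φ₀, g₀, co⟩ := core hD hZ hO hC hη (er ▸ hQ.lt.lift) hQ.lt.unr hb ho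
  obtain ⟨δ, J, m1, m2, m3⟩ := mid qb hZ hQ e hC hD g₀ L
  obtain ⟨ψ, hψ⟩ := W.exists_phi h2.1 h2.2.1 h2.2.2
  have le2 := hQ.spl 2 hZ.mem _ h2
  obtain ⟨φ, hφ⟩ : ∃ φ : dec (P 2), Fb 2 (P 2) φ := ⟨⟨ψ, W.phi_mem h2.1 h2.2.1 hψ⟩, hψ⟩
  obtain ⟨J₀, p4, le, -, all⟩ := O2.ord2 F O L.τ (P 2) φ _ C.s
    ((Sy.co 2 O).comp (dec (P 2)).subtype) L.g L.a L.b L.I L.f h2 hφ hC.sec (O2.cyc_of _ _) L.uni
    (fun i hi => congrArg Units.val ((hu _ h2).1 ⟨i, le2 i.2⟩ hi))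
    (((hu _ h2).2 ⟨φ, le2 φ.2⟩ φ.2).trans CharTwo.two_eq_zero)
  obtain ⟨J', j1, j2⟩ : ∃ J' : ∀ t, Ideal (PS O (C.τ t)), (∀ t h, J' t = J₀.comap (δ t h)) ∧
      ∀ t, ¬ Ov 2 (C.P t) → J' t = J t :=
    ⟨fun t => if h : Ov 2 (C.P t) then J₀.comap (δ t h) else J t, fun t h => dif_pos h,
      fun t h => dif_neg h⟩
  have os := co J' (fun t ht => by
    have h := mt (hC.ov_iff hZ t).1 ht
    rw [j2 t h]
    exact m2 t h) fun k => by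
      obtain ⟨σ, c, γ', e1, T⟩ := m1 _ (hC.u k).1
      obtain ⟨φ', rfl⟩ := Tp.sur (k := c) e1 φ
      rw [j1 _ (hC.u k).1]
      exact ⟨4, φ', le_rfl, T.par p4 le, (Tp.fb_cj e1).1 hφ, Tp.allF T e1 all⟩
  have j0 : ∀ 𝔮 : Ideal D.R, (∀ t h u, δ t h u ∈ J₀ → D.io t u ∈ 𝔮) →
      (∀ t, ¬ Ov 2 (C.P t) → ∀ u ∈ J t, D.io t u ∈ 𝔮) → D.J1 ≤ 𝔮 → D.J0 J' ≤ 𝔮 :=
    fun 𝔮 a b c => sup_le (sumI_le.2 fun t u hu => by
      by_cases h : Ov 2 (C.P t)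
      · exact a t h u (j1 t h ▸ hu :)
      · exact b t h u (j2 t h ▸ hu)) c
  have hk := (hC.u k).1
  obtain ⟨s₀, s1, s2⟩ := ex_s0 (O := O) hk
  obtain ⟨W, _, _, _, _, _, _, r, w1, w2, w3, -, x, x1, x2, x3⟩ := m3 J₀ p4.prime p4.par.gd.sat le
    p4.dim.ge (by
      obtain ⟨σ, c, γ', e1, T⟩ := m1 _ hk
      obtain ⟨φ', rfl⟩ := Tp.sur (k := c) e1 φ
      refine inv_of L.uni hC.sec p4.prime p4.par.gd.sat le (fun a b ha hb => ?_)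
        ((Tp.in_cj (k := c) e1).2 s1) ((Tp.cy_cj _ _).trans s2) (fun h => ?_) all
      · obtain ⟨a, rfl⟩ := Tp.sur (k := c) e1 a
        obtain ⟨b, rfl⟩ := Tp.sur (k := c) e1 b
        have := os.ine k a b ((Tp.in_cj e1).1 ha) ((Tp.in_cj e1).1 hb)
        rw [j1 _ hk, ← Tp.cy_cj σ] at this
        exact Tp.rel_of T le this
      · refine os.ne k s₀ φ' s1 s2 ((Tp.fb_cj e1).1 hφ) ?_
        rw [j1 _ hk]
        exact (Tp.tr_of T le s₀ φ' 4).2 h)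
    fun 𝔮 a b c d l => os.fin 𝔮 a (j0 𝔮 b c d) l
  refine ⟨W, _, ‹_›, ‹_›, ‹_›, ‹_›, _, r, w1, w2, w3, fun Q φ' hQ' hφ' => ?_⟩
  obtain ⟨σ, e1⟩ := GW.Pl.ov_trans hk hQ'
  have c : ∀ y ∈ dec Q, σ⁻¹ * y * σ ∈ dec (C.P (C.u k)) := fun y => (Tp.dec_iff e1).1
  let Ω := FractionRing W
  have inj := IsFractionRing.injective W Ω
  let i := IsScalarTower.toAlgHom O W Ω
  have z := j0 (RingHom.ker x) x2 x3 fun u hu => x1.ker u (Ideal.mem_sup_right hu)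
  have z0 : ∀ u, i.comp (x.comp (D.io (C.u k))) u = 0 ↔ D.io _ u ∈ RingHom.ker x := fun u =>
    (map_eq_zero_iff _ inj).trans RingHom.mem_ker.symm
  have : CharZero Ω := algebraRat.charZero Ω
  have o := ord_of (hC.uni (C.u k)) (x := i.comp (x.comp (D.io (C.u k))))
    (fun u hu => (z0 u).2 (x1.ker _ (Pd.io_I0 hu)))
    (fun a b ha hb m n => (z0 _).2 (z (Ideal.mem_sup_left (mem_sumI (os.ine k a b ha hb m n)))))
    two_ne_zero s1 s2 _ (mt (z0 _).1 (os.del k s₀ (cjH σ c φ') s1 s2 ((Tp.fb_cj e1).2 hφ') _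
      (RingHom.ker_isPrime x) z (fun o h => w2 (((x.commutes o).symm.trans h).trans
        (map_zero _).symm)) x1.l0))
  obtain ⟨h, h', a1, -, a2⟩ := x1.cj
  have a3 : ∀ y, (C.f (C.u k) y).map (i.comp (x.comp (D.io (C.u k)))) = h.map (algebraMap W Ω) *
      (r y).map (algebraMap W Ω) * h'.map (algebraMap W Ω) := fun y => by
    rw [← Matrix.map_mul, ← Matrix.map_mul]
    exact congrArg (·.map (algebraMap W Ω)) (a2 (C.u k) y)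
  simp only [a3] at o
  exact ⟨Ω, inferInstance, algebraMap W Ω, inj, Tp.ord_all (k := c)
    ((algebraMap W Ω).mapMatrix.toMonoidHom.comp r) e1 ((Tp.ord_cj (map_inv _ a1)).1 o)⟩

end Vale.Agent.P022K.LO
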