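import Vale.Agent.P022K.RT.Pd0
import Vale.Agent.P022K.RT.Pate1
import Vale.Agent.P022K.RT.Homf
import Vale.Agent.P022K.LO.Alg

/-!
# P022K, block LO: the support of the ordinary part of a patched module (algebra)
-/

set_option linter.all false

noncomputable section

namespace Vale.Agent.P022K.LO

open IsLocalRing MvPowerSeries Module
open Vale.Agent.P022D.Core (PS)
open Vale.Agent.P022K.PL (Cf)
open Vale.Agent.P022K.RT

/-- the projector of finitely many commuting operators -/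
theorem ex_ords {R N J : Type} [CommRing R] [AddCommGroup N] [Module R N] [Finite J]
    (T : J → End R N) (hc : ∀ k k' v, T k (T k' v) = T k' (T k v))
    (h : ∀ k v, ∃ n, Sb (T k) v n) :
    ∃ e : End R N, (∀ v k, e v ∈ Od (T k)) ∧ (∀ v, (∀ k, v ∈ Od (T k)) → e v = v) ∧
      ∀ φ : N →+ N, (∀ k v, φ (T k v) = T k (φ v)) → ∀ v, φ (e v) = e (φ v) := by
  classical
  have := Fintype.ofFinite J
  have key : ∀ s : Finset J, ∃ e : End R N, (∀ v, ∀ k ∈ s, e v ∈ Od (T k)) ∧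
      (∀ v, (∀ k, v ∈ Od (T k)) → e v = v) ∧
      ∀ φ : N →+ N, (∀ k v, φ (T k v) = T k (φ v)) → ∀ v, φ (e v) = e (φ v) := fun s => by
    induction s using Finset.induction_on with
    | empty => exact ⟨1, by simp, fun _ _ => rfl, fun _ _ _ => rfl⟩
    | insert a s _ ih =>
      obtain ⟨e, h1, h2, h3⟩ := ih
      obtain ⟨e', k1, k2, k3⟩ := ex_ord (T a) (h a)
      refine ⟨e' * e, fun v k hk => ?_, fun v hv => by rw [End.mul_apply, h2 v hv, k2 v (hv a)],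
        fun φ hφ v => by rw [End.mul_apply, k3 φ (hφ a), h3 φ hφ, End.mul_apply]⟩
      rcases Finset.mem_insert.1 hk with rfl | hk
      · exact k1 _
      · exact Od.map e' (fun v => (k3 (T k).toAddMonoidHom (hc k a) v).symm) (h1 v k hk)
  obtain ⟨e, h1, h2⟩ := key Finset.univ
  exact ⟨e, fun v k => h1 v k (Finset.mem_univ k), h2⟩

/-- the trace from a subgroup of finite index -/
theorem ex_tr {R M B : Type} [CommRing R] [AddCommGroup M] [Module R M] [Group B]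
    (a : B →* End R M) (H : Subgroup B) [H.FiniteIndex] : ∃ (t : End R M) (n : ℕ), n ≠ 0 ∧
      (∀ v, (∀ h ∈ H, a h v = v) → ∀ g, a g (t v) = t v) ∧
      (∀ v, (∀ g, a g v = v) → t v = n • v) ∧
      ∀ φ : End R M, (∀ g, Commute φ (a g)) → Commute φ t := by
  have := Fintype.ofFinite (B ⧸ H)
  refine ⟨∑ c : B ⧸ H, a c.out, Fintype.card (B ⧸ H), Fintype.card_ne_zero, fun v hv g => ?_,
    fun v hv => by simp [LinearMap.sum_apply, hv], fun φ hφ =>
      Commute.sum_right _ _ _ fun c _ => hφ _⟩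
  simp only [LinearMap.sum_apply, map_sum]
  refine Fintype.sum_equiv (MulAction.toPerm g) _ _ fun c => ?_
  have e : (g • c).out⁻¹ * (g * c.out) ∈ H := QuotientGroup.eq.1 (by
    rw [QuotientGroup.out_eq', ← smul_eq_mul, MulAction.Quotient.coe_smul_out])
  rw [← End.mul_apply, ← map_mul, MulAction.toPerm_apply]
  conv_rhs => rw [← hv _ e, ← End.mul_apply, ← map_mul, mul_inv_cancel_left]

theorem le_of_dim {R : Type} [CommRing R] {J K L : Ideal R} (hJ : J.IsPrime) {n : ℕ}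
    (hd : ringKrullDim (R ⧸ J) ≤ n) (hK : (n : WithBot ℕ∞) ≤ ringKrullDim (R ⧸ K))
    (h : J ≤ K.radical) : K ≤ J := fun a ha => by
  by_contra hn
  have h1 := ringKrullDim_quotient_succ_le_of_nonZeroDivisor (r := Ideal.Quotient.mk J a)
    (mem_nonZeroDivisors_of_ne_zero fun e => hn (Ideal.Quotient.eq_zero_iff_mem.1 e))
  have h2 : ringKrullDim (R ⧸ K) ≤ ringKrullDim (R ⧸ (J ⊔ Ideal.span {a})) := by
    rw [ringKrullDim_quotient, ringKrullDim_quotient]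
    refine Order.krullDim_le_of_strictMono (Set.inclusion fun x hx => ?_) fun _ _ e => e
    have hx' : K ≤ x.asIdeal := hx
    exact (sup_le (h.trans (x.2.radical_le_iff.2 hx'))
      ((Ideal.span_singleton_le_iff_mem _).2 (hx' ha)) : _ ≤ x.asIdeal)
  rw [← Set.image_singleton, ← Ideal.map_span,
    ringKrullDim_eq_of_ringEquiv (DoubleQuot.quotQuotEquivQuotSup J _)] at h1
  have h3 := (add_le_add_left (hK.trans h2) 1).trans (h1.trans hd)
  norm_cast at h3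
  omega

section

variable {O σ K M : Type} [CommRing O] [IsDomain O] [IsDiscreteValuationRing O] [Cf O] [Fintype σ]
  [Group K] [AddCommGroup M] [Module O M] [Module (PS O σ) M] [IsScalarTower O (PS O σ) M]
  {p r b : ℕ} [Fact p.Prime] {N : ℕ → Subgroup K} {qa qb : Fin r → PS O σ}

/-- patching up to radicals -/
theorem rad_patch {k : Fin 0 ⊕ Fin r → K} {ρ : K →* End (PS O σ) M} {θ : End (PS O σ) M}
    (h1 : (p : O) ∈ maximalIdeal O) (h2 : Unf p k N)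
    (h3 : Dm O k N ρ b (Empty.elim : Empty → K) qa qb) (h4 : ∀ g, Commute θ (ρ g))
    {J 𝔵 : Ideal (PS O σ)} {g : PS O σ} (hJ : J.IsPrime)
    (hd : ringKrullDim (PS O σ ⧸ J) ≤ (r + 1 : ℕ)) (hx : 𝔵.IsPrime) (ha : An θ ≤ 𝔵) (hg : g ∉ 𝔵)
    (h : Sat (An θ) → ∀ u ∈ J, g * u ∈ (An θ).radical) : An θ ≤ J := by
  have ne : ∀ n : ℕ, g ^ n • θ ≠ 0 := fun n e => hg (hx.mem_of_pow_mem n (ha
    (Pd.mem_an.2 fun m => LinearMap.congr_fun e m)))
  have h0 := ne 0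
  rw [pow_zero, one_smul] at h0
  have := PL.base_ps O σ
  obtain ⟨n, hn⟩ := Ideal.exists_pow_le_of_le_radical_of_fg (I := Ideal.span {g} * J)
    (Ideal.span_singleton_mul_le_iff.2 (h (pate1 dual h1 h2 h3 h4 h0).2))
    (IsNoetherian.noetherian _)
  refine le_trans (fun u hu => Pd.mem_an.2 fun m => ?_) (le_of_dim (L := J) hJ hd
    (pate1 dual h1 h2 h3 (fun x => (h4 x).smul_left _) (ne n)).1 fun u hu =>
      ⟨n, Pd.mem_an.2 fun m => ?_⟩)
  · rw [LinearMap.smul_apply, smul_comm, Pd.mem_an.1 hu, smul_zero]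
  · rw [LinearMap.smul_apply, smul_smul, mul_comm, ← mul_pow]
    exact Pd.mem_an.1 (hn (Ideal.pow_mem_pow
      (Ideal.mul_mem_mul (Ideal.mem_span_singleton_self g) hu) n)) m

/-- the data of the ordinary part -/
structure Op (O : Type) {R K M J : Type} [CommRing O] [CommRing R] [Group K] [AddCommGroup M]
    [Module O M] [Module R M] {r : ℕ} (ρ : K × Zr r →* End R M) (S : Submodule R M)
    (T : J → End R M) (η : End R M) : Prop where
  fx : ∀ v ∈ S, ∀ g, ρ (g, 1) v = v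
  z : ∀ z, ∀ v ∈ S, ρ (1, z) v ∈ S
  tr : ∃ (t : End R M) (n : O), n ≠ 0 ∧ (∀ v, (∀ g, ρ (g, 1) v = v) → t v ∈ S) ∧
    (∀ v ∈ S, t v = n • v) ∧ ∀ z, Commute t (ρ (1, z))
  tm : ∀ k, ∀ v ∈ S, T k v ∈ S
  tt : ∀ k k', Commute (T k) (T k')
  tz : ∀ k z, Commute (T k) (ρ (1, z))
  em : ∀ v ∈ S, η v ∈ S
  et : ∀ k, Commute η (T k)
  ez : ∀ z, Commute η (ρ (1, z))
  pr : ∃ (η' : End R M) (c : O), c ≠ 0 ∧ (∀ v ∈ S, η' v ∈ S) ∧ (∀ k, Commute η' (T k)) ∧
    (∀ z, Commute η' (ρ (1, z))) ∧ ∀ v, η (η' (η v)) = c • η v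

/-- the ordinary part -/
def Wo {R M J : Type} [CommRing R] [AddCommGroup M] [Module R M] (S : Submodule R M)
    (T : J → End R M) : Submodule R M := S ⊓ ⨅ k, Od (T k)

theorem mem_Wo {R M J : Type} [CommRing R] [AddCommGroup M] [Module R M] {S : Submodule R M}
    {T : J → End R M} {v : M} : v ∈ Wo S T ↔ v ∈ S ∧ ∀ k, v ∈ Od (T k) := by
  simp only [Wo, Submodule.mem_inf, Submodule.mem_iInf]

/-- **the support of the ordinary part** -/
theorem opa {e : ℕ} {k : Fin e → K} {ρ : K × Zr r →* End (PS O σ) M} {J : Type} [Finite J]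
    {S : Submodule (PS O σ) M} {T : J → End (PS O σ) M} {η : End (PS O σ) M}
    (hp : (p : O) ∈ maximalIdeal O) (hU : Unf p (kP k r) (NP N p r)) (hC : Cof O (NP N p r) ρ b)
    (mem : ∀ s, qa s ∈ maximalIdeal _ ∧ qb s ∈ maximalIdeal _)
    (quad : ∀ s, (ρ (1, zg s) - 1) ^ 2 - qa s • (ρ (1, zg s) - 1) + qb s • 1 = 0)
    (h : Op O ρ S T η) (φ : PS O σ →ₐ[O] O)
    (h0 : Unb O η (↑(Wo S T) ∩ Kl M (RingHom.ker φ))) {J₀ : Ideal (PS O σ)} {g : PS O σ}
    (hJ : J₀.IsPrime) (hd : ringKrullDim (PS O σ ⧸ J₀) ≤ (r + 1 : ℕ)) (hg : φ g ≠ 0)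
    (Ω : Type) [Field Ω] [IsAlgClosed Ω] [Algebra O Ω] [FaithfulSMul O Ω]
    (pt : ∀ x : PS O σ →ₐ[O] Ω, Pt ((Wo S T).map η).annihilator x → x g ≠ 0 →
      ∀ u ∈ J₀, x u = 0) :
    ((Wo S T).map η).annihilator ≤ J₀ ∧ ∀ 𝔮 : Ideal (PS O σ), 𝔮.IsPrime → J₀ ≤ 𝔮 →
      ((∀ o, C o ∈ 𝔮 → o = 0) → ∀ Q : Set (Fin r), (∀ s ∈ Q, qa s ∈ 𝔮 ∧ qb s ∈ 𝔮) →
        Unb O η (↑(Wo S T) ∩ (Kl M 𝔮 ∩ {v | ∀ s ∈ Q, ρ (1, zg s) v = v}))) ∧
      ((∀ s, ∃ c c', qa s - C c ∈ 𝔮 ∧ qb s - C c' ∈ 𝔮) → Module.Finite O (PS O σ ⧸ 𝔮)) := by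
  obtain ⟨t, n, n0, t1, t2, t3⟩ := h.tr
  obtain ⟨η', c, c0, p1, p2, p3, p4⟩ := h.pr
  have sp : ∀ g z v, ρ (g, z) v = ρ (g, 1) (ρ (1, z) v) := fun g z v => by
    rw [← End.mul_apply, ← map_mul, Prod.mk_mul_mk, mul_one, one_mul]
  have sp' : ∀ g z v, ρ (g, 1) (ρ (1, z) v) = ρ (1, z) (ρ (g, 1) v) := fun g z v => by
    rw [← sp, ← End.mul_apply, ← map_mul, Prod.mk_mul_mk, mul_one, one_mul]
  let H := Hm O (1 : K →* Matrix (Fin 1) (Fin 1) O) (ρ.comp (MonoidHom.inl K (Zr r)))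
  have mH : ∀ x : Fin 1 → M, x ∈ H ↔ ∀ g, ρ (g, 1) (x 0) = x 0 := fun x =>
    forall_congr' fun g => by simp [Fin.forall_fin_one]
  let j : H →ₗ[PS O σ] M := (LinearMap.proj 0).comp H.subtype
  have ji : ∀ {x y : H}, j x = j y → x = y := fun e =>
    Subtype.ext (funext fun i => Subsingleton.elim 0 i ▸ e)
  let ρ' : Zr r →* End (PS O σ) H :=
    { toFun := fun z => ((ρ (1, z)).compLeft (Fin 1)).restrict fun x hx => (mH _).2 fun g =>
        (sp' g z _).trans (congrArg _ ((mH _).1 hx g))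
      map_one' := LinearMap.ext fun x => ji (LinearMap.congr_fun (map_one ρ) _)
      map_mul' := fun z z' => LinearMap.ext fun x => ji (by
        show ρ (1, z * z') (j x) = ρ (1, z) (ρ (1, z') (j x))
        rw [← End.mul_apply, ← map_mul, Prod.mk_mul_mk, mul_one]) }
  have jr : ∀ z x, j (ρ' z x) = ρ (1, z) (j x) := fun _ _ => rfl
  have jo : ∀ (o : O) x, j (o • x) = o • j x := fun _ _ => rfl
  have hC' := homf O _ K M p e r b 1 k N ρ 1 hp hU hC
    (fun _ => ⟨0, fun _ _ _ _ => by simp⟩) ρ' fun _ _ _ => rfl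
  have hU' := Up.unf_Z (r := r) (Fact.out : p.Prime).ne_zero
  have hD : Dm O (fun s : Fin 0 ⊕ Fin r => (kP (Fin.elim0 : Fin 0 → Unit) r s).2) (NZ p r) ρ'
      (b * 1) Empty.elim qa qb := ⟨hC', fun i => i.elim, mem, fun s => LinearMap.ext fun x => ji
    (LinearMap.congr_fun (quad s) (j x)), (Pd.lv_fin hU' hC' 1).subset fun v hv =>
      ⟨fun z _ => fix_all ρ' hv.2.1 z, fun o ho => by
        rw [← algebraMap_smul (PS O σ)]
        exact hv.1 _ (mem_ps.2 (by simpa [MvPowerSeries.algebraMap_apply] using ho))⟩⟩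
  let TS : J → End (PS O σ) S := fun k => (T k).restrict (h.tm k)
  obtain ⟨e, e1, e2, e3⟩ := ex_ords TS
    (fun k k' v => Subtype.ext (LinearMap.congr_fun (h.tt k k').eq v.1)) fun k v => by
      obtain ⟨i, hi⟩ := hC.sm v.1
      refine ex_Sb _ {w : S | w.1 ∈ Lv O (NP N p r) ρ i}
        ((Pd.lv_fin hU hC i).preimage Subtype.val_injective.injOn) (fun w hw => ⟨?_, ?_⟩) hi
      · rintro ⟨g, z⟩ hg
        show ρ (g, z) (T k w) = T k w
        rw [sp, ← End.mul_apply (ρ (1, z)), ← (h.tz k z).eq, End.mul_apply,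
          hw.1 (1, z) ⟨one_mem _, hg.2⟩, h.fx _ (h.tm k _ w.2)]
      · intro o ho
        show o • T k w = 0
        rw [← algebraMap_smul (PS O σ), ← map_smul, algebraMap_smul, hw.2 o ho, map_zero]
  have od : ∀ (w : S) k, w ∈ Od (TS k) ↔ w.1 ∈ Od (T k) := fun w k =>
    exists_congr fun n => and_congr_right fun _ => by
      rw [Subtype.ext_iff, show (((TS k ^ n) w : S) : M) = (T k ^ n) w from pow_map S.subtype
        Set.univ (fun _ _ => trivial) (fun _ _ => rfl) n w trivial]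
  have ec : ∀ (ψ : End (PS O σ) M) (hψ : ∀ v ∈ S, ψ v ∈ S), (∀ k, Commute ψ (T k)) → ∀ w : S,
      ψ (e w) = e ⟨ψ w, hψ _ w.2⟩ := fun ψ hψ hc w => congrArg Subtype.val
    (e3 (ψ.restrict hψ).toAddMonoidHom
      (fun k v => Subtype.ext (LinearMap.congr_fun (hc k).eq v.1)) w)
  let cS : S →ₗ[PS O σ] H := (LinearMap.pi fun _ => S.subtype).codRestrict H fun w =>
    (mH _).2 (h.fx _ w.2)
  let tS : H →ₗ[PS O σ] S := (t.comp j).codRestrict S fun x => t1 _ ((mH _).1 x.2)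
  have tc : ∀ w, tS (cS w) = n • w := fun w => Subtype.ext (t2 _ w.2)
  have lo : ∀ {A B : Type} [AddCommGroup A] [AddCommGroup B] [Module O A] [Module O B]
      [Module (PS O σ) A] [Module (PS O σ) B] [IsScalarTower O (PS O σ) A]
      [IsScalarTower O (PS O σ) B] (f : A →ₗ[PS O σ] B) (o : O) a, f (o • a) = o • f a :=
    fun f o a => f.map_smul_of_tower o a
  have tz : ∀ z x, tS (ρ' z x) = ⟨ρ (1, z) (tS x), h.z z _ (tS x).2⟩ := fun z x =>
    Subtype.ext (LinearMap.congr_fun (t3 z).eq (j x))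
  let θ : End (PS O σ) H := cS ∘ₗ η.restrict h.em ∘ₗ e ∘ₗ tS
  have jθ : ∀ x, j (θ x) = η (e (tS x)) := fun _ => rfl
  have eW : ∀ w, (e w).1 ∈ Wo S T := fun w => mem_Wo.2 ⟨(e w).2, fun k => (od _ k).1 (e1 w k)⟩
  have ez : ∀ z x, ρ (1, z) (e (tS x)) = e (tS (ρ' z x)) := fun z x => by
    rw [ec _ (h.z z) fun k => (h.tz k z).symm, tz]
  have hθ : Prj O ρ' θ := by
    refine ⟨fun z => LinearMap.ext fun x => ji ?_, cS ∘ₗ η'.restrict p1 ∘ₗ tS, n * n * c,
      fun z => LinearMap.ext fun x => ji ?_, mul_ne_zero (mul_ne_zero n0 n0) c0, fun x => ji ?_⟩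
    · rw [End.mul_apply, End.mul_apply, jθ, jr, jθ, ← ez]
      exact LinearMap.congr_fun (h.ez z).eq _
    · show η' (tS (ρ' z x)) = ρ (1, z) (η' (tS x))
      rw [tz]
      exact LinearMap.congr_fun (p3 z).eq _
    · show η (e (tS (cS (η'.restrict p1 (tS (cS (η.restrict h.em (e (tS x))))))))) = _
      rw [tc, tc, lo, lo, lo, jo, jθ, Submodule.coe_smul_of_tower, Submodule.coe_smul_of_tower,
        lo, lo, mul_smul, mul_smul, ← p4]
      have e4 := ec _ p1 p2 (η.restrict h.em (e (tS x)))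
      rw [e2 (η.restrict h.em _) fun k => Od.map (η.restrict h.em) (fun v => Subtype.ext
        (LinearMap.congr_fun (h.et k).eq v.1)) (e1 _ k)] at e4
      exact congrArg (fun y => n • n • η y) e4.symm
  have le : ((Wo S T).map η).annihilator ≤ An θ := fun u hu => Pd.mem_an.2 fun x => ji (by
    rw [map_smul, map_zero, jθ]
    exact Submodule.mem_annihilator.1 hu _ ⟨_, eW _, rfl⟩)
  have ha : An θ ≤ RingHom.ker φ := an_le φ le_rfl fun o ho => by
    obtain ⟨w, ⟨w1, w2⟩, w3⟩ := h0 (o * n) (mul_ne_zero ho n0)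
    obtain ⟨w4, w5⟩ := mem_Wo.1 w1
    refine ⟨cS ⟨w, w4⟩, fun u hu => ji (w2 u hu), fun e => w3 ?_⟩
    have := congrArg j e
    rwa [jo, jθ, tc, lo, e2 _ fun k => (od _ k).2 (w5 k), Submodule.coe_smul_of_tower, lo,
      ← mul_smul, map_zero] at this
  have key : An θ ≤ J₀ := rad_patch hp hU' hD hθ.1 hJ hd (RingHom.ker_isPrime φ) ha hg
    fun hs u hu => jac O σ Ω _ _ hs fun x hx => by
      rw [map_mul]
      by_cases e : x g = 0
      · rw [e, zero_mul]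
      · rw [pt x ⟨fun v hv => hx.ker v (le hv), hx.int⟩ e u hu, mul_zero]
  refine ⟨le.trans key, fun 𝔮 hq hq' => ?_⟩
  obtain ⟨q1, q2, -⟩ := (pate dual O σ _ H p r _ _ _ ρ' qa qb θ hp hU' hD hθ).2 𝔮 hq
  refine ⟨fun c0 Q hQ o ho => ?_, q2 (key.trans hq')⟩
  obtain ⟨x, ⟨x1, x2⟩, x3⟩ := q1 (key.trans hq') c0 Q hQ o ho
  refine ⟨e (tS x), ⟨eW _, fun u hu => ?_, fun s hs => ?_⟩, fun e => x3 (ji e)⟩
  · rw [← Submodule.coe_smul, ← map_smul, ← map_smul, x1 u hu, map_zero, map_zero]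
    rfl
  · rw [ez]
    exact congrArg (fun y => (e (tS y)).1) (x2 s hs)

end

end Vale.Agent.P022K.LO
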