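import Vale.Agent.P022K.LO.St
import Vale.Agent.P022K.RT.LfSt

/-!
# P022K, block LO: ordinary lifting in weight two on a site (statements)
-/

set_option linter.all false

noncomputable section

namespace Vale.Agent.P022K.LO

open Vale.Agent.P022 Vale.Agent.P022.C
open Vale.Agent.P022D.L2b (M2)
open Vale.Agent.P022D.W (dec)
open Vale.Agent.P022E.GW (Ov Fb)
open Vale.Agent.P022K.PL (Cf)
open Vale.Agent.P022K.GW (Id)
open Vale.Agent.P022K.Top (Si Uu)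
open Vale.Agent.P022K.RT (Rb Lt Oa Qd Qo rsg mr)

/-- **ORD: ordinary modularity lifting on a site** -/
def ORD : Prop := ∀ (p : ℕ) [Fact p.Prime] (O F : Type) [CommRing O] [IsDomain O]
  [IsDiscreteValuationRing O] [Cf O] [CharZero O] [Algebra ℤ_[p] O] [Field F] [Finite F]
  [CharP F p] [Algebra O F] (Z : Si p O) (η : MonoidAlgebra O Z.G) (rb : Z.H →* GL (Fin 2) F)
  (s : F → O) (r₀ r : Z.H →* M2 O) (b₀ : Z.J → O),
  Z.Ok → Z.Orl → Z.Ty η → (p = 2 → Z.Twi) → Rb Z rb s → (p = 2 → ∀ P, Ov p P → Uu P rb) →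
  Lt Z rb s r₀ → Lt Z rb s r → Oa Z rb s r₀ r →
  (∀ P (le : dec P ≤ Z.H) (φ : dec P), Ov p P → Fb p P φ → Orx P φ (rsg le r) ∧
    (p ≠ 2 → Orx P φ (rsg le (mr rb)))) → (∀ k, IsUnit (b₀ k)) →
  Z.Ord η (fun g => (r₀ g).trace) b₀ → ∃ b, Z.Ord η (fun g => (r g).trace) b

/-- **LORD: ordinary lifts over `ℚ`**, `p = 2` -/
def LORD : Prop := ∀ (O F : Type) [CommRing O] [IsDomain O] [IsDiscreteValuationRing O] [Cf O]
  [CharZero O] [Algebra ℤ_[2] O] [Field F] [Finite F] [CharP F 2] [Algebra O F] (Z : Si 2 O)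
  (η : MonoidAlgebra O Z.G) (ρ : GQ →* GL (Fin 2) F) (s : F → O) (r₀ : Z.H →* M2 O)
  (b₀ : Z.J → O) (P : ℕ → Id) (V : ∀ l, dec (P l) →* M2 O),
  Z.Ok → Z.Orl → Z.Ty η → Z.Twi → Qd Z ρ s r₀ P V →
  (∀ Q, Ov 2 Q → Uu Q (ρ.comp Z.H.subtype)) → (∀ k, IsUnit (b₀ k)) →
  Z.Ord η (fun g => (r₀ g).trace) b₀ →
  ∃ (W : Type) (_ : CommRing W) (_ : IsDomain W) (_ : IsDiscreteValuationRing W) (_ : Cf W)
    (_ : CharZero W) (_ : Algebra O W) (r : GQ →* M2 W), Module.Finite O W ∧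
    Function.Injective (algebraMap O W) ∧ Qo 2 Z.S ρ s P V r ∧
    ∀ Q (φ : dec Q), Ov 2 Q → Fb 2 Q φ → Orx Q φ fun y => r y

end Vale.Agent.P022K.LO
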