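import Vale.Agent.P022K.LO.Core
import Vale.Agent.P022K.LO.St2

/-!
# P022K, block LO: ordinary modularity lifting on a site
-/

set_option linter.all false

noncomputable section

namespace Vale.Agent.P022K.LO

open IsLocalRing MvPowerSeries Matrix
open Vale.Agent.P022 Vale.Agent.P022.C
open Vale.Agent.P022D.L2b (M2)
open Vale.Agent.P022D.Core (PS)
open Vale.Agent.P022D.W (dec)
open Vale.Agent.P022E.GW (Ov Fb)
open Vale.Agent.P022K.PL (Cf)
open Vale.Agent.P022K.GW (Id)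
open Vale.Agent.P022K.Top (Si cy Bad Uu)
open Vale.Agent.P022K.O2 (AllF ORD2)
open Vale.Agent.P022K.RT Vale.Agent.P022K.RT.Pd

/-- descent to a field which contains the eigenvalues -/
theorem Orx.ord {F : Type} [Field F] {P : Id} {φ : dec P} {ρ : dec P → M2 F} (h : Orx P φ ρ)
    (hs : ∃ a : F, a ^ 2 - (ρ φ).trace * a + (ρ φ).det = 0) : O2.Ord P φ ρ := by
  obtain ⟨Ω, _, i, hi, w, α, w0, h1, h2, h3⟩ := h
  obtain ⟨a, ha⟩ := hs
  have c2 := congrArg (w ᵥ* ·) (ch2 ((ρ φ).map i))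
  simp only [← vecMul_vecMul, h3, smul_vecMul, vecMul_sub, vecMul_smul, vecMul_one, smul_smul,
    ← sub_smul] at c2
  have c3 := smul_left_injective Ω w0 c2
  have c4 := congrArg i ha
  rw [map_add, map_sub, map_mul, map_pow, map_zero, tr_map, RingHom.map_det] at c4
  obtain ⟨b, rfl⟩ : ∃ b, i b = α := by
    rcases mul_eq_zero.1 (show (i a - α) * (((ρ φ).map i).trace - i a - α) = 0 by
      simp only [RingHom.mapMatrix_apply] at c4; linear_combination c3 - c4) with e | e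
    · exact ⟨a, sub_eq_zero.1 e⟩
    · exact ⟨(ρ φ).trace - a, by rw [map_sub, tr_map]; exact sub_eq_zero.1 e⟩
  exact O2.Ord.desc i hi w0 h1 h2 h3

variable {p : ℕ} [Fact p.Prime] {O F : Type} [CommRing O] [IsDomain O]
  [IsDiscreteValuationRing O] [Cf O] [CharZero O] [Algebra ℤ_[p] O] [Field F] [Finite F]
  [CharP F p] [Algebra O F] {Z : Si p O} {C : Fr Z F}

/-- the ordinary component at a place over two -/
theorem oq_two (o2 : ORD2) (hC : C.Ok) (h2 : p = 2) {t : C.T} (ht : Ov p (C.P t))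
    (hu : Uu (C.P t) C.rb) {ψ : dec (C.P t)} (hψ : Fb p (C.P t) ψ) :
    ∃ J, Par J 4 ∧ C.I t ≤ J ∧ AllF _ ψ (C.I t) J (C.f t) := by
  subst h2
  obtain ⟨J, a, b, -, c⟩ := o2 F O _ _ ψ (C.r.comp (C.j t)) C.s
    ((Top.Gk.cyH 2 O).comp (dec (C.P t)).subtype) _ _ _ _ _ ht hψ hC.sec
    (O2.cyc_of (algebraMap ℤ_[2] O) _) (hC.uni t)
    (fun i hi => congrArg Units.val (hu.1 (C.j t i) hi))
    ((hu.2 (C.j t ψ) ψ.2).trans CharTwo.two_eq_zero)
  exact ⟨J, a, b, c⟩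

/-- **ORD** -/
theorem ord_of_rows (pkg : PKG fun p _ O _ _ Z => Z.Twi) (sys : SYS) (orp : ORP) (o2 : ORD2) :
    ORD := by
  intro p _ O F _ _ _ _ _ _ _ _ _ _ Z η rb s r₀ r b₀ hZ hO hη tw hb uu l0 l1 oa ox un od
  obtain ⟨C, rfl, rfl, hC, -⟩ := sys p O F Z rb s ∅ hZ
    ⟨hb.sec, hb.opn, hb.det, hb.spl, hb.odd, hb.two, hb.unr⟩ (Set.injOn_empty _)
  obtain ⟨D, h⟩ := pkg p O F Z C hZ hC tw
  obtain ⟨φ₀, g0, H⟩ := core h hZ hO hC hη l0.lift l0.unr un od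
  obtain ⟨φ, g1, -⟩ := h.gps r l1.lift l1.unr
  have : ∀ t, ∃ J : Ideal (PS O (C.τ t)),
      (¬ Ov p (C.P t) → ∃ g, Cm (C.I t) (φ₀.comp (D.io t)) J g) ∧
      (Ov p (C.P t) → ∃ (n : ℕ) (ψ : dec (C.P t)), n ≤ 4 ∧ Par J n ∧ Fb p (C.P t) ψ ∧
        AllF _ ψ (C.I t) J (C.f t)) ∧ ∀ u ∈ J, φ (D.io t u) = 0 := fun t => by
    by_cases ht : Ov p (C.P t)
    · obtain ⟨ψ, hψ⟩ := CH.Sy.ex_fb ht
      let ψ' : dec (C.P t) := ⟨ψ, CH.Sy.fb_dec ht hψ⟩
      obtain ⟨⟨Ω, _, i, hi, o1⟩, o3⟩ := ox _ (C.le t) ψ' ht hψ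
      obtain ⟨J, n, a1, a2, a3⟩ : Oq _ ψ' (C.I t) (C.f t) := by
        by_cases h2 : p = 2
        · obtain ⟨J, a, -, c⟩ := oq_two o2 hC h2 ht (uu h2 _ ht) (ψ := ψ') hψ
          exact ⟨J, 4, le_rfl, a, c⟩
        · obtain ⟨ω, h1, -⟩ := hC.odd h2
          have hd : ∀ g : Z.H, algebraMap O F (cy p O g.1) = (GW.up ω g : Fˣ) := Sy.co_up h1
          exact orp p F O _ _ ψ' (ω.comp (C.j t)) (C.r.comp (C.j t)) _ _ _ _ _ _ _ h2 ht hψ
            (fun g => h1 (C.j t g)) (hC.lc t) (fun x => (hC.det (C.j t x)).trans (hd _)) hC.sec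
            (hC.uni t) ((o3 h2).ord (hC.spl (C.j t ψ')))
      refine ⟨J, fun e => (e ht).elim, fun _ => ⟨n, ψ', a1, a2, hψ, a3⟩, fun u hu => hi ?_⟩
      letI := i.toAlgebra
      have := (faithfulSMul_iff_algebraMap_injective O Ω).2 hi
      obtain ⟨c, c', e1, -, e2⟩ := g1.cj
      refine (a3 Ω ((Algebra.ofId O Ω).comp (φ.comp (D.io t))) ⟨fun v hv =>
        (congrArg i (g1.ker _ (io_I0 hv))).trans (map_zero _), fun _ => isIntegral_algebraMap⟩ ?_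
        u hu).trans (map_zero _).symm
      convert o1.conj (map_inv i (mul_eq_one_comm.1 e1)) using 2 with y
      rw [← Matrix.map_mul, ← Matrix.map_mul]
      exact congrArg (·.map i) (e2 t y)
    · obtain ⟨J, g, a1, a2⟩ := oa _ (C.le t) (hC.bad t) ht _ _ _ _ _ _ (hC.uni t) _ _
        (fun u hu => g0.ker _ (io_I0 hu)) (fun u hu => g1.ker _ (io_I0 hu)) (g0.sc t) (g1.sc t)
      exact ⟨J, fun _ => ⟨g, a1⟩, fun e => (ht e).elim, a2⟩
  choose J j1 j2 j3 using this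
  exact (H J (fun t ht => j1 t fun e => ht ((hC.ov_iff hZ t).1 e)) fun k => j2 _ (hC.u k).1).ord
    φ r g1 (sup_le (sumI_le.2 j3) fun u hu => g1.ker u (Ideal.mem_sup_right hu))

end Vale.Agent.P022K.LO
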