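import Vale.Agent.P022K.RT.CmpB
import Vale.Agent.P022K.RT.Unrb

/-!
# P022K, block LO: a smooth quotient below an ideal with small tangent space
-/

set_option linter.all false

noncomputable section

namespace Vale.Agent.P022K.LO.Orp

open IsLocalRing MvPowerSeries Module
open Vale.Agent.P022D.L2b (M2 decomp mem_max_iff ker_eq)
open Vale.Agent.P022D.Core (PS)
open Vale.Agent.P022D
open Vale.Agent.P022K.PL (Cf)
open Vale.Agent.P022K.RT Vale.Agent.P022K.RT.Lu

variable {F O τ : Type} [Field F] [CommRing O] [IsDomain O] [IsDiscreteValuationRing O]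
  [Algebra O F] [Fintype τ]

variable (F O τ) in
/-- the residue map -/
def rs : PS O τ →+* F := (algebraMap O F).comp constantCoeff

/-- the tangent space of `I` -/
def Tg (I : Ideal (PS O τ)) : Submodule F (τ → F) where
  carrier := {v | ∀ u ∈ I, dr (rs F O τ) v u = 0}
  add_mem' {a b} ha hb u hu := by
    have h1 := ha u hu
    have h2 := hb u hu
    simp only [dr, Pi.add_apply, add_mul, Finset.sum_add_distrib] at h1 h2 ⊢
    rw [h1, h2, add_zero]
  zero_mem' u _ := by simp [dr]
  smul_mem' c a ha u hu := by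
    have h1 := ha u hu
    simp only [dr, Pi.smul_apply, smul_eq_mul, mul_assoc, ← Finset.mul_sum] at h1 ⊢
    rw [h1, mul_zero]

variable {s : F → O} (hs : ∀ x, algebraMap O F (s x) = x)
include hs

theorem rs_max (u : PS O τ) : u ∈ maximalIdeal (PS O τ) ↔ rs F O τ u = 0 := by
  rw [mem_max_iff, ← ker_eq hs]; rfl

omit hs in
theorem rs_C (o : O) : rs F O τ (C o) = algebraMap O F o := by simp [rs]

omit hs in
theorem rs_X (t : τ) : rs F O τ (X t) = 0 := by simp [rs]

omit hs in
theorem dr_sum {ι : Type} (S : Finset ι) (φ : PS O τ →+* F) (v : τ → F) (a : ι → PS O τ) :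
    dr φ v (∑ i ∈ S, a i) = ∑ i ∈ S, dr φ v (a i) := by
  classical
  induction S using Finset.induction_on with
  | empty => simpa using dr_zero φ v
  | insert i S hi ih => rw [Finset.sum_insert hi, Finset.sum_insert hi, dr_add, ih]

/-- generators of the maximal ideal -/
theorem gen {I : Ideal (PS O τ)} (hI : I ≤ maximalIdeal (PS O τ)) (S : Set τ)
    (h : ∀ v ∈ Tg (F := F) I, (∀ t ∈ S, v t = 0) → v = 0) :
    maximalIdeal (PS O τ) ≤ I ⊔ (maximalIdeal (PS O τ) ^ 2 ⊔ (maximalIdeal O).map C ⊔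
      Ideal.span (X '' S)) := by
  classical
  set K := I ⊔ (maximalIdeal (PS O τ) ^ 2 ⊔ (maximalIdeal O).map C ⊔ Ideal.span (X '' S)) with hK
  have hm : K ≤ maximalIdeal (PS O τ) := sup_le hI (sup_le (sup_le (Ideal.pow_le_self two_ne_zero)
    (Ideal.map_le_iff_le_comap.2 fun o ho => C_max ho))
    (Ideal.span_le.2 (by rintro _ ⟨t, -, rfl⟩; exact X_max t)))
  let D : PS O τ → τ → F := fun u t => dr (rs F O τ) (Pi.single t 1) u
  let W : Submodule F (τ → F) :=
    { carrier := D '' K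
      add_mem' := by
        rintro _ _ ⟨a, ha, rfl⟩ ⟨b, hb, rfl⟩
        exact ⟨a + b, K.add_mem ha hb, funext fun t => dr_add _ _ a b⟩
      zero_mem' := ⟨0, K.zero_mem, funext fun t => dr_zero _ _⟩
      smul_mem' := by
        rintro c _ ⟨a, ha, rfl⟩
        refine ⟨C (s c) * a, K.mul_mem_left _ ha, funext fun t => ?_⟩
        show dr _ _ _ = c * dr _ _ _
        rw [dr_mul, dr_C, zero_mul, zero_add, rs_C, hs] }
  have hD : ∀ (v : τ → F) u, dr (rs F O τ) v u = ∑ t, v t * D u t := fun v u => by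
    simp [D, dr, Pi.single_apply]
  have hW : W = ⊤ := by
    by_contra hn
    obtain ⟨l, l0, hl⟩ := W.exists_le_ker_of_lt_top (lt_top_iff_ne_top.2 hn)
    let v : τ → F := fun t => l (Pi.single t 1)
    have hv : ∀ u ∈ K, dr (rs F O τ) v u = 0 := fun u hu => by
      have := hl (show D u ∈ W from ⟨u, hu, rfl⟩)
      rw [LinearMap.mem_ker, LinearMap.pi_apply_eq_sum_univ] at this
      rw [hD, ← this]
      refine Finset.sum_congr rfl fun t _ => ?_
      rw [smul_eq_mul, mul_comm]
      exact congrArg _ (congrArg l (funext fun j => by simp [Pi.single_apply, eq_comm]))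
    have := h v (fun u hu => hv u (Ideal.mem_sup_left hu)) fun t ht => by
      rw [← dr_X (rs F O τ) v t]
      exact hv _ (Ideal.mem_sup_right (Ideal.mem_sup_right (Ideal.subset_span ⟨t, ht, rfl⟩)))
    refine l0 (LinearMap.pi_ext' fun t => LinearMap.ext_ring ?_)
    exact congrFun this t
  intro a ha
  obtain ⟨u, hu, e⟩ : D a ∈ W := hW ▸ trivial
  rw [← sub_add_cancel a u]
  refine K.add_mem ?_ hu
  have hb := sub_mem ha (hm hu)
  have h0 : ∀ t, dr (rs F O τ) (Pi.single t 1) (a - u) = 0 := fun t => by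
    rw [dr_sub]; exact sub_eq_zero.2 (congrFun e t).symm
  generalize a - u = b at hb h0
  obtain ⟨c, hc⟩ := decomp b
  rw [hc]
  refine K.add_mem (Ideal.mem_sup_right (Ideal.mem_sup_left (Ideal.mem_sup_right
    (Ideal.mem_map_of_mem _ ((mem_max_iff b).1 hb))))) (K.sum_mem fun t _ =>
      Ideal.mem_sup_right (Ideal.mem_sup_left (Ideal.mem_sup_left ?_)))
  rw [pow_two]
  refine Ideal.mul_mem_mul (X_max t) ((rs_max hs _).2 ?_)
  have := h0 t
  rw [hc, dr_add, dr_C, zero_add, dr_sum] at this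
  simpa [dr_mul, dr_X, rs_X, Pi.single_apply] using this

/-- **a smooth quotient below `I`** -/
theorem cut [hO : Cf O] {I : Ideal (PS O τ)} (hI : I ≤ maximalIdeal (PS O τ)) {n : ℕ}
    (h : Module.rank F (Tg (F := F) I) ≤ n) : ∃ (J : Ideal (PS O τ)) (k : ℕ),
      k ≤ n ∧ Par J k ∧ J ≤ I := by
  classical
  obtain ⟨a, ha⟩ := sel (F := F) (V := τ → F) (α := Option τ)
    (fun o => o.elim 0 LinearMap.proj) (fun c hc => funext fun t => hc (some t)) n _ h
  let S : Finset τ := Finset.univ.filter fun t => ∃ i, a i = some t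
  have hS : S.card ≤ n := by
    rw [← Finset.card_image_of_injective S (Option.some_injective τ)]
    refine (Finset.card_le_card (t := Finset.univ.image a) fun o ho => ?_).trans
      (Finset.card_image_le.trans (by simp))
    obtain ⟨t, ht, rfl⟩ := Finset.mem_image.1 ho
    obtain ⟨i, hi⟩ := (Finset.mem_filter.1 ht).2
    exact Finset.mem_image.2 ⟨i, Finset.mem_univ _, hi⟩
  have hg := gen hs hI S fun v hv h0 => ha v hv fun i => by
    rcases e : a i with _ | t
    · rfl
    · exact h0 t (Finset.mem_filter.2 ⟨Finset.mem_univ _, i, e⟩)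
  let e : Fin S.card → τ := fun i => S.equivFin.symm i
  have he : Function.Injective e := Subtype.val_injective.comp S.equivFin.symm.injective
  haveI hA := PL.base_ps O (Fin S.card)
  haveI hB := PL.base_ps O τ
  have c0 := hO.cpl
  have c1 := hA.cpl
  have c2 := hB.cpl
  obtain ⟨θ, t1, t2⟩ := NR.exists_ev (maximalIdeal (PS O τ)) (C : O →+* PS O τ)
    (fun i => X (e i)) fun i => X_max _
  haveI : Nontrivial (PS O τ ⧸ I) := Ideal.Quotient.nontrivial_iff.2
    (ne_top_of_le_ne_top (maximalIdeal.isMaximal _).ne_top hI)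
  haveI : IsLocalRing (PS O τ ⧸ I) :=
    IsLocalRing.of_surjective' (Ideal.Quotient.mk I) Ideal.Quotient.mk_surjective
  let mk := Ideal.Quotient.mk I
  have m1 := Zl.surj_loc mk Ideal.Quotient.mk_surjective
  have m2 : (maximalIdeal (PS O τ ⧸ I)).comap mk = maximalIdeal (PS O τ) :=
    eq_maximalIdeal (Ideal.comap_isMaximal_of_surjective mk Ideal.Quotient.mk_surjective)
  have hl : Function.Surjective (mk.comp θ) := by
    refine NR.ev_surj (maximalIdeal O) _ (fun y => ?_) (fun o ho => ?_) (fun i => ?_) fun y hy => ?_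
    · obtain ⟨u, rfl⟩ := Ideal.Quotient.mk_surjective y
      refine ⟨constantCoeff u, ?_⟩
      rw [RingHom.comp_apply, t1]
      exact m1 (u - C (constantCoeff u)) (by rw [mem_max_iff]; simp)
    · rw [RingHom.comp_apply, t1]; exact m1 _ (C_max ho)
    · rw [RingHom.comp_apply, t2]; exact m1 _ (X_max _)
    · obtain ⟨u, rfl⟩ := Ideal.Quotient.mk_surjective y
      refine Ideal.mem_comap.1 (hg.trans (sup_le (fun u hu => ?_) (sup_le (sup_le
        (fun u hu => ?_) ?_) ?_)) (m2.le hy))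
      · rw [Ideal.mem_comap, Ideal.Quotient.eq_zero_iff_mem.2 hu]; exact zero_mem _
      · exact Ideal.mem_sup_left (Ideal.mem_sup_left (Or.pow_map mk m1 2 u hu))
      · refine Ideal.map_le_iff_le_comap.2 fun o ho => Ideal.mem_sup_left (Ideal.mem_sup_right ?_)
        rw [← t1]
        exact Ideal.mem_map_of_mem ((mk.comp θ).comp C) ho
      · refine Ideal.span_le.2 ?_
        rintro _ ⟨t, ht, rfl⟩
        refine Ideal.mem_sup_right (Ideal.subset_span ⟨S.equivFin ⟨t, ht⟩, ?_⟩)
        simp [t2, e, mk]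
  have hy : ∀ t, ∃ y ∈ maximalIdeal (PS O (Fin S.card)), mk (θ y) = mk (X t) ∧
      ∀ i, e i = t → y = X i := fun t => by
    by_cases ht : ∃ i, e i = t
    · obtain ⟨i, rfl⟩ := ht
      exact ⟨X i, X_max i, by rw [t2], fun j hj => by rw [he hj]⟩
    · obtain ⟨y, hy⟩ := hl (mk (X t))
      refine ⟨y, fun hu => ?_, hy, fun i hi => absurd ⟨i, hi⟩ ht⟩
      exact m1 _ (X_max t) (hy ▸ hu.map _)
  choose y y1 y2 y3 using hy
  obtain ⟨ψ, p1, p2⟩ := NR.exists_ev (maximalIdeal (PS O (Fin S.card))) (C : O →+* _) y y1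
  have e1 : RingHom.id _ = ψ.comp θ := NR.ev_ext (maximalIdeal (PS O (Fin S.card)))
    (fun o => by rw [RingHom.comp_apply, t1, p1]; rfl)
    (fun i => by rw [RingHom.comp_apply, t2, p2, y3 _ i rfl]; rfl) fun i => X_max i
  have hsurj : Function.Surjective ψ := fun u => ⟨θ u, (RingHom.congr_fun e1 u).symm⟩
  have hH := NR.haus_of_le (maximalIdeal.isMaximal (PS O τ ⧸ I)).ne_top
  have e2 : mk = (mk.comp θ).comp ψ := NR.ev_ext (maximalIdeal (PS O τ ⧸ I))
    (fun o => by rw [RingHom.comp_apply, p1, RingHom.comp_apply, t1])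
    (fun t => by rw [RingHom.comp_apply, p2, RingHom.comp_apply, y2]) fun t => m1 _ (X_max t)
  refine ⟨RingHom.ker ψ, S.card, hS, ⟨⟨_, ⟨ψ, p1⟩, rfl⟩, ?_⟩, fun u hu => ?_⟩
  · obtain ⟨ϖ, hϖ⟩ := IsDiscreteValuationRing.exists_irreducible O
    refine (ringKrullDim_eq_of_ringEquiv (RingHom.quotientKerEquivOfSurjective hsurj)).trans ?_
    rw [(P022D.Rl.Ch0.reg (σ := Fin S.card) hϖ.maximalIdeal_eq).2, Fintype.card_fin]
  · refine Ideal.Quotient.eq_zero_iff_mem.1 ((RingHom.congr_fun e2 u).trans ?_)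
    rw [RingHom.comp_apply, RingHom.mem_ker.1 hu, map_zero]

end Vale.Agent.P022K.LO.Orp
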