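import Vale.Agent.P022K.LO.Opa

/-!
# P022K, block LO: the ordinary part of the patched module of a site
-/

set_option linter.all false

noncomputable section

namespace Vale.Agent.P022K.LO

open IsLocalRing MvPowerSeries Filter Module
open Vale.Agent.P022 Vale.Agent.P022.C
open Vale.Agent.P022D.L2b (M2)
open Vale.Agent.P022D.Core (PS)
open Vale.Agent.P022D.W (dec)
open Vale.Agent.P022E.GW (Ov Fb)
open Vale.Agent.P022.H443 (inP)
open Vale.Agent.P022K.PL (Cf)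
open Vale.Agent.P022K.WB (G2 Kn)
open Vale.Agent.P022K.Top (Si cy Bad)
open Vale.Agent.P022K.Top.Gk (Km_eq)
open Vale.Agent.P022K.Sh (Fv KK Km Zl gK Cor hk_inv)
open Vale.Agent.P022K.RT Vale.Agent.P022K.RT.Pd

variable {p : ℕ} [Fact p.Prime]

/-- reduction of integral matrices -/
abbrev rn (p n : ℕ) [Fact p.Prime] :
    GL (Fin 2) ℤ_[p] →* GL (Fin 2) (ℤ_[p] ⧸ maximalIdeal ℤ_[p] ^ n) :=
  Matrix.GeneralLinearGroup.map (Ideal.Quotient.mk (maximalIdeal ℤ_[p] ^ n))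

theorem fin_rn (n : ℕ) : Finite (GL (Fin 2) (ℤ_[p] ⧸ maximalIdeal ℤ_[p] ^ n)) := by
  have : Finite (ℤ_[p] ⧸ maximalIdeal ℤ_[p]) :=
    Finite.of_equiv _ (PadicInt.residueField (p := p)).symm.toEquiv
  have := Ideal.finite_quotient_pow (IsNoetherian.noetherian (maximalIdeal ℤ_[p])) n
  infer_instance

theorem rn_mem {n : ℕ} {y : GL (Fin 2) ℤ_[p]} (h : rn p n y = 1) : gK ℚ_[p] y ∈ Kn p n :=
  (Km_eq n).le ⟨y, h, rfl⟩

theorem Kn_le (n : ℕ) : Kn p n ≤ KK ℤ_[p] ℚ_[p] := (Km_eq n).ge.trans (Subgroup.map_le_range _ _)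

variable {O F : Type} [CommRing O] [IsDomain O] [IsDiscreteValuationRing O] [Algebra ℤ_[p] O]
  [Field F] {Z : Si p O} {C : Fr Z F}

/-- vectors of maximal level at `p` -/
theorem fv_of (hZ : Z.Ok) {U : Subgroup Z.G} (hU : Z.Sl U) {z : Z.M}
    (h1 : z ∈ Fv Z.a (U ⊓ ⨅ k, (Z.x k).π.ker)) (h2 : ∀ k, z ∈ Fv (Z.ap k) (KK ℤ_[p] ℚ_[p])) :
    z ∈ Fv Z.a U := by
  have key : ∀ s : Finset Z.J, ∀ u ∈ U, (∀ k ∉ s, (Z.x k).π u = 1) → Z.a u z = z := fun s => by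
    induction s using Finset.induction_on with
    | empty => exact fun u a c => h1 u ⟨a, Subgroup.mem_iInf.2 fun k => c k (by simp)⟩
    | insert k s _ ih =>
      intro u a c
      have b := (hU.2.2 k).2 u a
      have e1 : KK ℤ_[p] ℚ_[p] ⊔ Zl ℚ_[p] ≤ (Top.Gk.Sb Z.a z).comap (Z.x k).ι := sup_le (h2 k)
        fun g hg => LinearMap.congr_fun (hZ.cc.z _ ((Z.x k).cen g hg)) z
      have e3 := ih _ (mul_mem a (inv_mem (((hU.2.2 k).iff hU.1).2 b))) fun k' e => by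
        by_cases e' : k' = k
        · rw [e', map_mul, map_inv, (Z.x k).πι, mul_inv_cancel]
        · rw [map_mul, map_inv, (hZ.xx k' k e').1, inv_one, mul_one, c k' (by simp [e, e'])]
      exact ((Top.Gk.Sb Z.a z).mul_mem_cancel_right (inv_mem (e1 b))).1 e3
  exact fun u hu => key Finset.univ u hu (by simp)

variable (D : Pd C)

/-- the Hecke operator at a place over `p` -/
def hk (Y : Mo O D.R (Gr Z) C.T D.r) (k : Z.J) : End D.R Y.Y :=
  haveI := (Z.x k).fin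
  haveI := Fintype.ofFinite (ResidueField ℤ_[p])
  ∑ i, D.ak Y k ((Z.x k).tr i)

/-- the spherical vectors -/
def Sp : Submodule D.R D.M.Y := ⨅ k, Fv (D.ak D.M k) (KK ℤ_[p] ℚ_[p])

/-- the ordinary part -/
abbrev W : Submodule D.R D.M.Y := Wo (Sp D) (hk D D.M)

variable {D}

theorem mem_Sp {v : D.M.Y} : v ∈ Sp D ↔ ∀ k, ∀ g ∈ KK ℤ_[p] ℚ_[p], D.ak D.M k g v = v :=
  Submodule.mem_iInf _

theorem com_hk {Y : Mo O D.R (Gr Z) C.T D.r} {θ : End D.R Y.Y} {k : Z.J}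
    (h : ∀ g, Commute θ (D.ak Y k g)) : Commute θ (hk D Y k) :=
  Commute.sum_right _ _ _ fun _ _ => h _

theorem Sp_map {θ : End D.R D.M.Y} (h : ∀ k g, Commute θ (D.ak D.M k g)) :
    ∀ v ∈ Sp D, θ v ∈ Sp D := fun v hv => mem_Sp.2 fun k g hg => by
  rw [← End.mul_apply, ← (h k g).eq, End.mul_apply, mem_Sp.1 hv k g hg]

theorem W_map {θ : End D.R D.M.Y} (h : ∀ k g, Commute θ (D.ak D.M k g)) :
    ∀ v ∈ W D, θ v ∈ W D := fun v hv => mem_Wo.2 ⟨Sp_map h v (mem_Wo.1 hv).1, fun k =>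
  Od.map θ (fun w => LinearMap.congr_fun (com_hk (h k)).eq w) ((mem_Wo.1 hv).2 k)⟩

theorem ak_ak {k k' : Z.J} (e : k ≠ k') (g g' : G2 p) :
    Commute (D.ak D.M k g) (D.ak D.M k' g') :=
  (Pi.mulSingle_commute (f := fun _ => G2 p) e g g').map
    (D.M.a.comp ((MonoidHom.inl _ _).comp D.ψ))

theorem psi_fix {v : D.M.Y} {g : Z.J → G2 p} (h : ∀ k, D.ak D.M k (g k) v = v) :
    D.M.a (D.ψ g, 1) v = v :=
  Subgroup.pi_mem_of_mulSingle_mem
    (H := Top.Gk.Sb (D.M.a.comp ((MonoidHom.inl _ _).comp D.ψ)) v) g h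

variable [Algebra O F] (h : D.Ok)
include h

theorem ev_ak (n : ℕ) (k : Z.J) (g : G2 p) (v : (D.Y n).Y) (ξ : D.X n) :
    D.ev n (D.ak (D.Y n) k g v) ξ = Z.ap k g (D.ev n v ξ) := by
  rw [ak_apply, h.psi_eq, h.eva]
  rfl

theorem ev_hk (n : ℕ) (k : Z.J) (v : (D.Y n).Y) (ξ : D.X n) :
    D.ev n (hk D (D.Y n) k v) ξ = (Z.x k).Tv Z.a (D.ev n v ξ) := by
  simp only [hk, Sh.Tw.Lc.Tv, LinearMap.sum_apply, map_sum, Finset.sum_apply, ev_ak h]
  rfl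

theorem k_hk (k : Z.J) (z : Ym Z C.t) :
    ∃ z' : Ym Z C.t, z'.1 = (Z.x k).Tv Z.a z.1 ∧ D.κ z' = hk D D.M k (D.κ z) := by
  choose w h1 h2 using fun i => h.k_ak k ((Z.x k).tr i) z
  have := (Z.x k).fin
  let _ := Fintype.ofFinite (ResidueField ℤ_[p])
  exact ⟨∑ i, w i, by
    simp only [Sh.Tw.Lc.Tv, LinearMap.sum_apply, Submodule.coe_sum, h1]; rfl, by
    simp only [hk, LinearMap.sum_apply, map_sum, h2]⟩

theorem rp_hk (k : Z.J) {v : D.M.Y} {x : ∀ n, (D.Y n).Y} (hx : D.Rp v x) :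
    D.Rp (hk D D.M k v) fun n => hk D (D.Y n) k (x n) := by
  have := (Z.x k).fin
  let _ := Fintype.ofFinite (ResidueField ℤ_[p])
  have := h.rp_sum Finset.univ fun i => h.ra (D.ψ (Pi.mulSingle k ((Z.x k).tr i)), 1) v x hx
  convert this using 1
  · exact LinearMap.sum_apply _ _ _
  · funext n
    rw [Finset.sum_apply]
    exact LinearMap.sum_apply _ _ _

theorem rp_pow (k : Z.J) {v : D.M.Y} {x : ∀ n, (D.Y n).Y} (hx : D.Rp v x) (m : ℕ) :
    D.Rp ((hk D D.M k ^ m) v) fun n => (hk D (D.Y n) k ^ m) (x n) := by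
  induction m with
  | zero => exact hx
  | succ m ih => simpa only [pow_succ', End.mul_apply] using rp_hk h k ih

theorem ak_cen (hZ : Z.Ok) (k : Z.J) {g : G2 p} (hg : g ∈ Zl ℚ_[p]) (v : D.M.Y) :
    D.ak D.M k g v = v := by
  obtain ⟨x, hx⟩ := h.ult.ex v
  exact (h.ult.eq _ _ _ _ (h.ra _ v x hx) hx).2 (.of_forall fun n => h.inj n (funext fun ξ =>
    (ev_ak h n k g _ ξ).trans (LinearMap.congr_fun (hZ.cc.z _ ((Z.x k).cen g hg)) _)))

theorem hk_mem (hZ : Z.Ok) (k : Z.J) : ∀ v ∈ Sp D, hk D D.M k v ∈ Sp D := fun v hv =>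
  mem_Sp.2 fun k' g hg => by
    by_cases e : k' = k
    · subst e
      have := (Z.x k').fin
      let _ := Fintype.ofFinite (ResidueField ℤ_[p])
      have r := (Z.x k').rep_loc
      have c : Cor (KK ℤ_[p] ℚ_[p]) _ _ := ⟨?_, r.right, r.fin⟩
      · have le : KK ℤ_[p] ℚ_[p] ⊔ Zl ℚ_[p] ≤ Top.Gk.Sb (D.ak D.M k') v :=
          sup_le (mem_Sp.1 hv k') fun g hg => ak_cen h hZ k' hg v
        have i : Sh.Inv (KK ℤ_[p] ℚ_[p] ⊔ Zl ℚ_[p]) fun x => D.ak D.M k' x v := fun x u hu => by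
          simp only [map_mul, End.mul_apply, show D.ak D.M k' u v = v from le hu]
        have := hk_inv c i 1 g hg
        rw [r.hk i, r.hk i] at this
        simpa only [hk, LinearMap.sum_apply, map_sum, one_mul, map_mul, End.mul_apply] using this
      · rintro u hu _ ⟨a, ha, b, hb, rfl⟩
        exact ⟨u * a, mul_mem (Subgroup.mem_sup_left hu) ha, b, hb, by simp only [mul_assoc]⟩
    · rw [← End.mul_apply, (com_hk (ak_ak e g)).eq, End.mul_apply, mem_Sp.1 hv k' g hg]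

theorem th_ak {η : MonoidAlgebra O Z.G} (hη : ∀ y ∈ η.coeff.support, Z.Tm y) (k : Z.J) (g : G2 p) :
    Commute (D.th η) (D.ak D.M k g) := h.th_psi _ hη _ _

/-- the data of the ordinary part -/
theorem op [CharZero O] (hZ : Z.Ok) {η : MonoidAlgebra O Z.G} (hη : Z.Ty η) :
    Op O (D.rho D.M) (Sp D) (hk D D.M) (D.th η) := by
  have zc : ∀ z k g, Commute (D.rho D.M (1, z)) (D.ak D.M k g) := fun z k g => by
    rw [rho_inr]; exact (com_z _ _ z).symm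
  obtain ⟨h1, η', c, h2, h3, h4⟩ := hη
  refine ⟨fun v hv g => psi_fix fun k => mem_Sp.1 hv k _ (Kn_le _ (g k).2), fun z => Sp_map (zc z),
    ?_, hk_mem h hZ, fun k k' => ?_, fun k z => (com_hk (zc z k)).symm, Sp_map (th_ak h h1),
    fun k => com_hk (th_ak h h1 k), fun z => h.th_psi _ h1 _ _, D.th η', c, h3,
    Sp_map (th_ak h h2), fun k => com_hk (th_ak h h2 k), fun z => h.th_psi _ h2 _ _, fun v => ?_⟩
  · have := fin_rn (p := p) (0 + 2)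
    obtain ⟨t, n, t0, t1, t2, t3⟩ := ex_tr ((D.M.a.comp ((MonoidHom.inl _ _).comp D.ψ)).comp
      ((gK ℚ_[p]).compLeft Z.J)) ((rn p (0 + 2)).compLeft Z.J).ker
    refine ⟨t, n, Nat.cast_ne_zero.2 t0, fun v hv => mem_Sp.2 ?_, fun v hv => ?_, fun z =>
      (t3 _ fun g => by rw [rho_inr]; exact (com_z _ _ z).symm).symm⟩
    · rintro k _ ⟨y, rfl⟩
      have := t1 v (fun g hg => hv fun k => ⟨_, rn_mem (congrFun hg k)⟩) (Pi.mulSingle k y)
      rw [ak_apply, ← funext (Pi.apply_mulSingle (fun _ : Z.J => gK ℚ_[p]) (fun _ => map_one _) k y)]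
      exact this
    · rw [t2 v fun g => psi_fix fun k => mem_Sp.1 hv k _ ⟨g k, rfl⟩, Nat.cast_smul_eq_nsmul]
  · by_cases e : k = k'
    · rw [e]
    · exact com_hk fun g => (com_hk fun g' => (ak_ak e g' g).symm).symm
  · obtain ⟨x, hx⟩ := h.ult.ex v
    refine (h.ult.eq _ _ _ _ (h.rp_th h1 (h.rp_th h2 (h.rp_th h1 hx)))
      (h.rp_smul c (h.rp_th h1 hx))).2 (.of_forall fun n => h.inj n (funext fun ξ => ?_))
    obtain ⟨Q, -, hQ⟩ := h.ev_aw n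
    rw [Pi.smul_apply, map_smul, Pi.smul_apply, h.ev_th h1, h.ev_th h2, h.ev_th h1,
      h4 Q _ (hQ _ _)]

/-- ordinary vectors are represented by ordinary vectors -/
theorem rp_W (hZ : Z.Ok) {v : D.M.Y} (hv : v ∈ W D) {x : ∀ n, (D.Y n).Y} (hx : D.Rp v x) :
    ∀ᶠ n in (D.U : Filter ℕ), ∃ U, Z.Sl U ∧ ∀ ξ, D.ev n (x n) ξ ∈ Fv Z.a U ∧
      ∀ k, D.ev n (x n) ξ ∈ Od ((Z.x k).Tv Z.a) := by
  obtain ⟨v1, v2⟩ := mem_Wo.1 hv
  obtain ⟨j, hj⟩ := h.ult.sm v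
  have := fin_rn (p := p) (j + (0 + 2))
  have a1 : ∀ᶠ n in (D.U : Filter ℕ), ∀ k, ∀ c : _ ⧸ (rn p (j + (0 + 2))).ker,
      D.ak (D.Y n) k (gK ℚ_[p] c.out) (x n) = x n :=
    eventually_all.2 fun k => eventually_all.2 fun c =>
      (h.ult.eq _ _ _ _ (h.ra _ v x hx) hx).1 (mem_Sp.1 v1 k _ ⟨_, rfl⟩)
  have a2 : ∀ᶠ n in (D.U : Filter ℕ), ∀ k, x n ∈ Od (hk D (D.Y n) k) :=
    eventually_all.2 fun k => by
      obtain ⟨m, h0, hm⟩ := v2 k
      exact ((h.ult.eq _ _ _ _ (rp_pow h k hx m) hx).1 hm).mono fun n hn => ⟨m, h0, hn⟩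
  filter_upwards [a1, a2, (h.ult.lev v x j hx).1 hj] with n b1 b2 b3
  obtain ⟨Q, U, -, c1, -, c2⟩ := h.lev n
  refine ⟨U, c1, fun ξ => ⟨fv_of hZ c1 (c2 _ ξ).1 fun k => ?_, fun k =>
    Od.map ((LinearMap.proj ξ).comp (D.ev n)) (fun w => ev_hk h n k w ξ) (b2 k)⟩⟩
  rintro _ ⟨y, rfl⟩
  obtain ⟨u, hu⟩ := QuotientGroup.mk_out_eq_mul (rn p (j + (0 + 2))).ker y
  have e1 := rn_mem (inv_mem u.2)
  have e2 := b3.1 (Pi.mulSingle k ⟨_, WB.Kn_anti le_add_self e1⟩, 1) ⟨mem_NG.2 fun i =>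
    ⟨1, _, ?_, by rw [WB.dd_one, one_mul]⟩, one_mem _⟩
  · rw [rho_single] at e2
    rw [← ev_ak h, show y = _ * u.1⁻¹ from eq_mul_inv_of_mul_eq hu.symm, map_mul, map_mul,
      End.mul_apply, e2, b1]
  · dsimp only
    by_cases e : i = k
    · rw [e, Pi.mulSingle_eq_same]
      exact e1
    · rw [Pi.mulSingle_eq_of_ne e]
      exact one_mem _

theorem E_W (t : C.T) (m : M2 D.R) : ∀ v ∈ W D, D.M.E t m v ∈ W D :=
  W_map fun _ _ => D.M.com t m _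

theorem ev_N (n : ℕ) (t : C.T) (s : dec (C.P t)) (v : (D.Y n).Y) (ξ : D.X n) :
    D.ev n ((D.Y n).E t (D.fm t s - (MvPowerSeries.C (cy p O s.1) : D.R) • 1) v) ξ =
      (Z.g (C.j t s) - cy p O (C.j t s).1 • 1) (D.ev n v ξ) := by
  rw [map_sub, map_smul, map_one, LinearMap.sub_apply, map_sub, Pi.sub_apply, h.evg,
    LinearMap.smul_apply, show (MvPowerSeries.C (cy p O s.1) : D.R) = algebraMap O D.R _ from rfl,
    algebraMap_smul, map_smul]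
  rfl

variable [CharP F p] (hZ : Z.Ok) (hO : Z.Orl) (hC : C.Ok) (k : Z.J)
include hZ hO hC

/-- **inertia on the ordinary part** -/
theorem ine_W {s s' : dec (C.P (C.u k))} (hs : s.1 ∈ inP (C.P (C.u k)))
    (hs' : s'.1 ∈ inP (C.P (C.u k))) (i j : Fin 2) : ∀ v ∈ W D,
    ((D.fm _ s - (MvPowerSeries.C (cy p O s.1) : D.R) • 1) * (D.fm _ s' - 1)) i j • v = 0 := by
  refine ent_zero (O := D.R) (D.M.E (C.u k)).toRingHom
    (fun u v => LinearMap.congr_fun ((D.M.E (C.u k)).commutes u) v) (W D) (E_W h _)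
    (fun v hv => ?_) i j
  obtain ⟨x, hx⟩ := h.ult.ex v
  refine (h.ult.eq _ _ _ _ (h.rE _ _ v x hx) h.rp_zero).2 ((rp_W h hZ hv hx).mono ?_)
  rintro n ⟨U, h1, h2⟩
  refine h.inj n (funext fun ξ => ?_)
  rw [map_mul, End.mul_apply, ev_N h, map_sub ((D.Y n).E _), map_one, LinearMap.sub_apply _ 1,
    map_sub (D.ev n), Pi.sub_apply, h.evg, Pi.zero_apply, map_zero]
  exact hO.ine U k _ h1 (hC.u k).1 (hC.u k).2 _ (h2 ξ).1 ((h2 ξ).2 k) _ _ hs hs'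

/-- **Frobenius elements on the ordinary part** -/
theorem frb_W {s φ : dec (C.P (C.u k))} (hs : s.1 ∈ inP (C.P (C.u k)))
    (hφ : Fb p (C.P (C.u k)) φ) : ∀ v ∈ W D,
    ((D.fm _ s - (MvPowerSeries.C (cy p O s.1) : D.R) • 1) * (D.fm _ φ * D.fm _ φ + p • 1)).trace •
      v = hk D D.M k
        (((D.fm _ s - (MvPowerSeries.C (cy p O s.1) : D.R) • 1) * D.fm _ φ).trace • v) := by
  refine tr_rel (O := D.R) (D.M.E (C.u k)).toRingHom
    (fun u v => LinearMap.congr_fun ((D.M.E (C.u k)).commutes u) v) (W D) (E_W h _)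
    (hk D D.M k).toAddMonoidHom (fun m v => LinearMap.congr_fun
      (com_hk fun _ => D.M.com _ m _).eq v) fun v hv => ?_
  obtain ⟨x, hx⟩ := h.ult.ex v
  refine (h.ult.eq _ _ _ _ (h.rE _ _ v x hx) (rp_hk h k (h.rE _ _ v x hx))).2
    ((rp_W h hZ hv hx).mono ?_)
  rintro n ⟨U, h1, h2⟩
  refine h.inj n (funext fun ξ => ?_)
  have := hO.frb U k _ h1 (hC.u k).1 (hC.u k).2 _ (h2 ξ).1 ((h2 ξ).2 k) (C.j _ s) (C.j _ φ) hs hφ
  rw [← End.mul_apply (hk D _ k), ← (com_hk fun _ => (D.Y n).com _ _ _).eq, End.mul_apply,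
    map_mul, map_mul, End.mul_apply, End.mul_apply, ev_N h, ev_N h, ← sub_eq_zero, ← map_sub,
    ← this, ← End.mul_apply _ (hk D _ k), (com_hk fun _ => (D.Y n).com _ _ _).eq, End.mul_apply,
    ev_hk h, h.evg, map_add, map_mul, map_nsmul, map_one, LinearMap.add_apply, map_add,
    Pi.add_apply, End.mul_apply, h.evg, h.evg, add_sub_right_comm, LinearMap.smul_apply,
    map_nsmul]
  rfl

end Vale.Agent.P022K.LO
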